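import Vale.Agent.P221.H45.Defs
import Vale.Agent.P221.H626.PcV
import Vale.Agent.P221.H924.Deg
import Vale.Agent.P221.H746.Z6

/-!
# P221 (helper45): the homotopy of the Brown-Peterson monoid modulo `p`

* `piDiv_bp` : `π_k B` is `p`-divisible unless `2 p - 2` divides `k`;
* `piIn_mod` : `π_k (B ⊗ S/p) = 0` unless `2 p - 2` divides `k`.
-/

open CategoryTheory MonoidalCategory MonObj Limits Pretriangulated

set_option linter.unusedSectionVars false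

noncomputable section

universe u

namespace Vale.Agent.P221.H45

open Vale.Agent.P251 Vale.Agent.P251.S Vale.Agent.P251.T Vale.Agent.P251.M Vale.Agent.P251.F
  Vale.Agent.P251.I EvenSpheres Vale.Agent.P257.H80 Vale.Agent.P251.Q Vale.Agent.P221.H746
  Vale.Agent.P093.N0 Vale.Agent.P221.H924

variable {𝒯 : Type u} [Category.{0} 𝒯] [Preadditive 𝒯] [HasZeroObject 𝒯]
    [HasShift 𝒯 ℤ] [∀ n : ℤ, (shiftFunctor 𝒯 n).Additive] [Pretriangulated 𝒯] [IsTriangulated 𝒯]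
    [MonoidalCategory 𝒯] [SymmetricCategory 𝒯] [TensorTriangulated 𝒯] [MonoidalClosed 𝒯]
    [HasCoproducts.{0} 𝒯] [HasProducts.{0} 𝒯] [StableCat 𝒯]

/-- a nonzero polynomial of weight `w` in `v_1, v_2, …` : `p - 1` divides `w` -/
theorem dvd_of_isWH {p : ℕ} [hp : Fact p.Prime] {f : MvPolynomial ℕ (ZMod p)} {w : ℕ}
    (hf : f.IsWeightedHomogeneous (wN p) w) (h0 : f ≠ 0) : p - 1 ∣ w := by
  obtain ⟨d, hd⟩ := MvPolynomial.exists_coeff_ne_zero h0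
  have h1 := hf hd
  rw [← h1, Finsupp.weight_apply]
  refine Finset.dvd_sum fun i _ => ?_
  refine Dvd.dvd.mul_left ?_ _
  have h2 : p - 1 ∣ p ^ (i + 1) - 1 ^ (i + 1) := Nat.sub_dvd_pow_sub_pow p 1 (i + 1)
  rwa [one_pow] at h2

variable {D : MUData 𝒯} {p : ℕ} [hp : Fact p.Prime]
  {F : SpaceFunctor 𝒯} {e : F.S.obj CCF ≅ (stdEven 𝒯).L}
  {B : 𝒯} [MonObj B] [IsCommMonObj B] {b : D.R ⟶ B} [IsMonHom b]

/-- **`π_k B` is `p`-divisible unless `2 p - 2` divides `k`** -/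
theorem piDiv_bp (hD : MUUniv e D) (hA : MUAll D) (hb : IsBPMon p b) {k : ℤ}
    (hk : ¬ (2 * (p : ℤ) - 2) ∣ k) (y : (𝟙_ 𝒯)⟦k⟧ ⟶ B) : ∃ y', y = (p : ℤ) • y' := by
  obtain ⟨w, rfl | rfl⟩ := Int.even_or_odd' k
  · obtain ⟨κ, -, hker, hlaw⟩ := exists_kappa hD hA hb
    let u : (stdEven 𝒯).S w ⟶ B := (stdSph w).hom ≫ y
    have h1 : κ (HRing.of (stdEven 𝒯) B w u) = 0 := by
      rcases lt_or_ge w 0 with hw | hw
      · exact kappa_neg hD hA hb hlaw hw u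
      · obtain ⟨w, rfl⟩ := Int.eq_ofNat_of_zero_le hw
        by_contra h0
        have h2 := dvd_of_isWH (kappa_isWH hD hA hb hlaw u) h0
        refine hk ?_
        obtain ⟨c, rfl⟩ := h2
        refine ⟨c, ?_⟩
        have h3 : 1 ≤ p := hp.out.one_le
        push_cast [Nat.cast_sub h3]
        ring
    obtain ⟨a', ha⟩ := hker _ h1
    have h4 : (HRing.of (stdEven 𝒯) B w u) w = u :=
      DirectSum.of_eq_same (β := (stdEven 𝒯).Gr B) _ _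
    have h5 : (p : HRing (stdEven 𝒯) B) * a' = (p : ℤ) • a' := by
      rw [zsmul_eq_mul, Int.cast_natCast]
    have h6 : ((p : ℤ) • a' : HRing (stdEven 𝒯) B) w = (p : ℤ) • (a' w : (stdEven 𝒯).S w ⟶ B) :=
      DFinsupp.zsmul_apply _ _ _
    have h7 : u = (p : ℤ) • (a' w : (stdEven 𝒯).S w ⟶ B) := by
      rw [← h6, ← h5, ← ha, h4]
    refine ⟨(stdSph w).inv ≫ (a' w : (stdEven 𝒯).S w ⟶ B), ?_⟩
    rw [← Preadditive.comp_zsmul, ← h7, Iso.inv_hom_id_assoc]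
  · exact (good_bp hD hA hb).oddDiv w y

/-- **`π_k (B ⊗ S/p) = 0` unless `2 p - 2` divides `k`** -/
theorem piIn_mod (hD : MUUniv e D) (hA : MUAll D) (hb : IsBPMon p b) {C : 𝒯} {i : 𝟙_ 𝒯 ⟶ C}
    {δ : C ⟶ (𝟙_ 𝒯)⟦(1 : ℤ)⟧} (hC : Triangle.mk ((p : ℤ) • 𝟙 (𝟙_ 𝒯)) i δ ∈ distTriang 𝒯) :
    PiIn (fun k => (2 * (p : ℤ) - 2) ∣ k) (B ⊗ C) := by
  intro k hk y
  obtain ⟨u, w, hT, -⟩ := H626.tri_pow hC B
  have h0 : y ≫ w = 0 := by
    let e₁ : ((𝟙_ 𝒯)⟦k - 1⟧)⟦(1 : ℤ)⟧ ≅ (𝟙_ 𝒯)⟦k⟧ :=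
      (shiftFunctorAdd' 𝒯 (k - 1) 1 k (by ring)).symm.app _
    obtain ⟨z, hz⟩ := (shiftFunctor 𝒯 (1 : ℤ)).map_surjective (e₁.hom ≫ y ≫ w)
    have h1 : w ≫ ((p : ℤ) • 𝟙 B)⟦(1 : ℤ)⟧' = 0 := comp_distTriang_mor_zero₃₁ _ hT
    have h2 : (p : ℤ) • z = 0 := by
      apply (shiftFunctor 𝒯 (1 : ℤ)).map_injective
      have h3 : z ≫ ((p : ℤ) • 𝟙 B) = (p : ℤ) • z := by
        rw [Preadditive.comp_zsmul, Category.comp_id]
      rw [← h3, Functor.map_comp, Functor.map_zero, hz, Category.assoc, Category.assoc, h1,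
        comp_zero, comp_zero]
    have h3 : z = 0 := Vale.Agent.P221.E.tf_bp hD hA hb _ ⟨k - 1, ⟨Iso.refl _⟩⟩ z h2
    rw [h3, Functor.map_zero] at hz
    rw [← cancel_epi e₁.hom, ← hz, comp_zero]
  obtain ⟨x, hx⟩ : ∃ x : (𝟙_ 𝒯)⟦k⟧ ⟶ B, y = x ≫ u := Triangle.coyoneda_exact₃ _ hT y h0
  obtain ⟨x', rfl⟩ := piDiv_bp hD hA hb hk x
  have h4 : ((p : ℤ) • 𝟙 B) ≫ u = 0 := comp_distTriang_mor_zero₁₂ _ hT
  have h5 : (p : ℤ) • x' = x' ≫ ((p : ℤ) • 𝟙 B) := by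
    rw [Preadditive.comp_zsmul, Category.comp_id]
  rw [hx, h5, Category.assoc, h4, comp_zero]

end Vale.Agent.P221.H45
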