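import Vale.Agent.P221.H45.TelA

/-!
# P221 (helper45): the localisation `M_w` and the map `Y ⟶ M_w`

`statementA`.
-/

open CategoryTheory MonoidalCategory MonObj Limits Pretriangulated
open Vale.Agent.P251.T Vale.Agent.P251.M Vale.Agent.P251.S

set_option linter.unusedSectionVars false

universe u

noncomputable section

namespace Vale.Agent.P221.H45

open Vale.Agent.P221.T

variable {𝒯 : Type u} [Category.{0} 𝒯] [Preadditive 𝒯] [HasZeroObject 𝒯]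
    [HasShift 𝒯 ℤ] [∀ n : ℤ, (shiftFunctor 𝒯 n).Additive] [Pretriangulated 𝒯] [IsTriangulated 𝒯]
    [MonoidalCategory 𝒯] [SymmetricCategory 𝒯] [TensorTriangulated 𝒯] [MonoidalClosed 𝒯]
    [HasCoproducts.{0} 𝒯] [HasProducts.{0} 𝒯] [StableCat 𝒯]

/-- the braiding exchanges the two tensor functors -/
theorem fm_braid (V : 𝒯) {P Q : 𝒯} {m : ℤ} (a : P⟦m⟧ ⟶ Q) :
    fm (tensorLeft V) a ≫ (β_ V Q).hom = ((β_ V P).hom)⟦m⟧' ≫ fm (tensorRight V) a := by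
  have h := NatTrans.shift_app_comm (BraidedCategory.tensorLeftIsoTensorRight V).hom m P
  change (csh V m P).hom ≫ ((β_ V P).hom)⟦m⟧' = (β_ V (P⟦m⟧)).hom ≫ (rsh m P V).hom at h
  change ((csh V m P).inv ≫ V ◁ a) ≫ (β_ V Q).hom =
    ((β_ V P).hom)⟦m⟧' ≫ (rsh m P V).inv ≫ a ▷ V
  have h1 : ((β_ V P).hom)⟦m⟧' ≫ (rsh m P V).inv = (csh V m P).inv ≫ (β_ V (P⟦m⟧)).hom := by
    rw [Iso.comp_inv_eq, Category.assoc, ← h, Iso.inv_hom_id_assoc]
  rw [reassoc_of% h1, Category.assoc]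
  congr 1
  exact BraidedCategory.braiding_naturality_right V a

theorem fm_right_eq (V : 𝒯) {P Q : 𝒯} {m : ℤ} (a : P⟦m⟧ ⟶ Q) :
    fm (tensorRight V) a = ((β_ P V).hom)⟦m⟧' ≫ fm (tensorLeft V) a ≫ (β_ V Q).hom := by
  rw [fm_braid, ← Functor.map_comp_assoc, SymmetricCategory.symmetry,
    CategoryTheory.Functor.map_id, Category.id_comp]

theorem fm_left_eq (V : 𝒯) {P Q : 𝒯} {m : ℤ} (a : P⟦m⟧ ⟶ Q) :
    fm (tensorLeft V) a = ((β_ V P).hom)⟦m⟧' ≫ fm (tensorRight V) a ≫ (β_ Q V).hom := by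
  rw [← Category.assoc, ← fm_braid, Category.assoc, SymmetricCategory.symmetry]
  exact (Category.comp_id _).symm

theorem gc_conj {A A' B C C' : 𝒯} {m k k' : ℤ} (h : k + m = k') (α : A' ⟶ A) (γ : A⟦m⟧ ⟶ B)
    {B' : 𝒯} (β : B ⟶ B') (β' : B' ⟶ B) (hβ : β ≫ β' = 𝟙 B) (a : B⟦k⟧ ⟶ C) (c : C ⟶ C') :
    gc h (α⟦m⟧' ≫ γ ≫ β) (β'⟦k⟧' ≫ a ≫ c) = α⟦k'⟧' ≫ gc h γ a ≫ c := by
  rw [← gc_comp, comp_gc, ← Category.assoc, gc_map, ← Functor.map_comp_assoc, hβ,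
    CategoryTheory.Functor.map_id, Category.id_comp]

/-- the interchange, the degree of the left factor being even -/
theorem gc_fm_interchange' {V V' P X : 𝒯} {d k k' : ℤ} (hk : SignProp 𝒯 k 1) (h : d + k = k')
    (h' : k + d = k') (a : P⟦k⟧ ⟶ X) (f : V⟦d⟧ ⟶ V') :
    gc h (fm (tensorRight V) a) (fm (tensorLeft X) f) =
      gc h' (fm (tensorLeft P) f) (fm (tensorRight V') a) := by
  rw [fm_right_eq V a, fm_left_eq X f, fm_left_eq P f, fm_right_eq V' a,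
    gc_conj h _ _ _ _ (SymmetricCategory.symmetry V X),
    gc_conj h' _ _ _ _ (SymmetricCategory.symmetry V' P),
    ← H377.gc_fm_interchange hk h' h f a]

theorem nat_left_unit {P Q : 𝒯} {m : ℤ} (a : P⟦m⟧ ⟶ Q) :
    ((λ_ P).inv)⟦m⟧' ≫ fm (tensorLeft (𝟙_ 𝒯)) a = a ≫ (λ_ Q).inv := by
  have h := H377.unit_fm (𝟙 (𝟙_ 𝒯)) a
  simpa using h

variable {R X : 𝒯} [MonObj R] (M : ModStr R X) {d : ℤ} (w : (𝟙_ 𝒯)⟦d⟧ ⟶ R)

/-- the extensions of classes commute with the action of `w` -/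
theorem hat_act (hd : SignProp 𝒯 d 1) {k k' : ℤ} (h : k + d = k') (h' : d + k = k')
    (z : (𝟙_ 𝒯)⟦k⟧ ⟶ X) :
    gc h (actM (ModStr.self R) w) (hat M z) = gc h' (hat M z) (actM M w) := by
  have hl : fm (tensorLeft R) (hat M z) ≫ M.act = (μ[R])⟦k⟧' ≫ hat M z := hat_isLin M z
  have h1 : gc h' (hat M z) (actM M w) =
      ((λ_ R).inv)⟦k'⟧' ≫ gc h' (fm (tensorLeft (𝟙_ 𝒯)) (hat M z)) (fm (tensorRight X) w) ≫
        M.act := by
    rw [← gc_comp, comp_gc, nat_left_unit, gc_map]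
    rfl
  rw [h1, ← gc_fm_interchange' hd h h' w (hat M z), ← gc_comp, hl, comp_gc, ← gc_map,
    Category.assoc]
  rfl

variable {M w}

/-- the maps from the stages of the telescope of `R` -/
def psi (U : TelD (actM M w) 0) {k : ℤ} (z : (𝟙_ 𝒯)⟦k⟧ ⟶ X) (j : ℕ) :
    R⟦k - (j : ℤ) * d⟧ ⟶ U.obj :=
  gc (show 0 - (j : ℤ) * d + k = k - (j : ℤ) * d by ring) (hat M z) (U.ι j)

theorem psi_compat (hd : SignProp 𝒯 d 1) (U : TelD (actM M w) 0) {k : ℤ}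
    (z : (𝟙_ 𝒯)⟦k⟧ ⟶ X) (j : ℕ) :
    trF (actM (ModStr.self R) w) k j ≫ psi U z (j + 1) = psi U z j := by
  have h1 : U.ι j = gc (show 0 - ((j + 1 : ℕ) : ℤ) * d + d = 0 - (j : ℤ) * d by push_cast; ring)
      (actM M w) (U.ι (j + 1)) := by
    rw [← U.w j]
    change gc _ _ _ ≫ _ = _
    rw [← gc_comp, Category.id_comp]
  unfold psi trF
  rw [← gc_comp, Category.id_comp, h1,
    gc_assoc (actM (ModStr.self R) w) (hat M z) (U.ι (j + 1)) _ _ (rfl : k + d = k + d)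
      (by push_cast; ring),
    gc_assoc (hat M z) (actM M w) (U.ι (j + 1)) _ _ (show d + k = k + d by ring)
      (by push_cast; ring), hat_act M w hd rfl (by ring) z]

theorem exists_psi (hd : SignProp 𝒯 d 1) (U : TelD (actM M w) 0) {k : ℤ}
    (z : (𝟙_ 𝒯)⟦k⟧ ⟶ X) (T : TelD (actM (ModStr.self R) w) k) :
    ∃ l : T.obj ⟶ U.obj, ∀ j, T.ι j ≫ l = psi U z j :=
  T.exists_desc (fun j => psi U z j) (psi_compat hd U z)

/-- the index set of the sum -/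
abbrev Idx (X : 𝒯) (q i₀ : ℤ) : Type :=
  Σ k : {k : ℤ // q ∣ k - i₀}, ((𝟙_ 𝒯)⟦k.1⟧ ⟶ X)

theorem zero_of_stages {V : 𝒯} {I : Type} {a : I → ℤ} {g : R⟦d⟧ ⟶ R} (T : ∀ i, TelD g (a i))
    {k : ℤ} (h : ∀ (i : I) (j : ℕ) (k' : ℤ) (h : a i - (j : ℤ) * d + k' = k)
      (z : (𝟙_ 𝒯)⟦k'⟧ ⟶ R ⊗ V), gc h z (fm (tensorRight V) ((T i).ι j)) = 0)
    (y : (𝟙_ 𝒯)⟦k⟧ ⟶ (∐ fun i => (T i).obj) ⊗ V) : y = 0 := by
  obtain ⟨s, g, rfl⟩ := compact_sumR V (fun i => (T i).obj) (⟨k, ⟨Iso.refl _⟩⟩) y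
  refine Finset.sum_eq_zero fun i _ => ?_
  obtain ⟨j, k', h', z, hz⟩ := exists_stage V (T i) (g i)
  rw [hz, h i j k' h' z, zero_comp]

variable (M w)

/-- **[A]** -/
theorem nonempty_locData {q i₀ : ℤ} (hq : q ∣ d) (hd : SignProp 𝒯 d 1) :
    Nonempty (LocData M q i₀ w) := by
  let U : TelD (actM M w) 0 := tel _
  let T : ∀ i : Idx X q i₀, TelD (actM (ModStr.self R) w) i.1.1 := fun i => tel _
  choose l hl using fun i : Idx X q i₀ => exists_psi hd U i.2 (T i)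
  refine ⟨{ U := U.obj, Y := ∐ fun i => (T i).obj, ι := ι₀ U, g := Sigma.desc l,
            isLoc := isLoc_tel U, onto := ?_, cls := ?_, zero := ?_ }⟩
  · intro k hk z
    obtain ⟨j, z₀, rfl⟩ := U.exists_factor (isCpt_one k) z
    obtain ⟨k', hk'⟩ : ∃ k' : ℤ, k' - (j : ℤ) * d = k := ⟨k + j * d, by ring⟩
    subst hk'
    obtain ⟨z', rfl⟩ := gc_surj (show 0 - (j : ℤ) * d + k' = k' - (j : ℤ) * d by ring) z₀
    have hk' : q ∣ k' - i₀ := by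
      have h1 : k' - i₀ = (k' - (j : ℤ) * d - i₀) + (j : ℤ) * d := by ring
      rw [h1]
      exact dvd_add hk (hq.mul_left _)
    let i : Idx X q i₀ := ⟨⟨k', hk'⟩, z'⟩
    refine ⟨(η[R])⟦k' - (j : ℤ) * d⟧' ≫ (T i).ι j ≫ Sigma.ι (fun i => (T i).obj) i, ?_⟩
    rw [Category.assoc, Category.assoc, Sigma.ι_desc, hl i j]
    change _ ≫ gc _ (hat M z') (U.ι j) = _
    rw [comp_gc, unit_hat, ← gc_comp, Category.id_comp]
  · intro V E hE hV k hk y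
    refine zero_of_stages T (fun i j k' h z => ?_) y
    have h1 : ¬ E k' := by
      intro h2
      refine hk (hE k' _ ?_ h2)
      have h3 : k' - (k - i₀) = (j : ℤ) * d - (i.1.1 - i₀) := by linarith
      rw [h3]
      exact dvd_sub (hq.mul_left _) i.1.2
    rw [hV k' h1 z, gc_zero_left]
  · intro V hV
    refine StableCat.generator _ fun k y => ?_
    exact zero_of_stages T (fun i j k' h z => (hV k' z).ι_zero V (T i) j h) y

theorem statementA : StatementA 𝒯 := fun _ _ _ _ M _ _ _ w hq hd =>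
  nonempty_locData M w hq hd

end Vale.Agent.P221.H45
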