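import Vale.Agent.P221.H45.Nil
import Vale.Agent.P221.H45.LocA

/-!
# P221 (helper45): comparison of `X ⊗ f` and the action of `w`

`statementC_of` : `StatementC` from the local nilpotence of the difference.
-/

open CategoryTheory MonoidalCategory MonObj Limits Pretriangulated
open Vale.Agent.P251.T Vale.Agent.P251.M Vale.Agent.P251.S

set_option linter.unusedSectionVars false

universe u

noncomputable section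

namespace Vale.Agent.P221.H45

open Vale.Agent.P221.T

variable {𝒯 : Type u} [Category.{0} 𝒯] [Preadditive 𝒯] [HasZeroObject 𝒯]
    [HasShift 𝒯 ℤ] [∀ n : ℤ, (shiftFunctor 𝒯 n).Additive] [Pretriangulated 𝒯] [IsTriangulated 𝒯]
    [MonoidalCategory 𝒯] [SymmetricCategory 𝒯] [TensorTriangulated 𝒯] [MonoidalClosed 𝒯]
    [HasCoproducts.{0} 𝒯] [HasProducts.{0} 𝒯] [StableCat 𝒯]

section tri

variable {A Q : 𝒯} {d : ℤ} {φ : A⟦d⟧ ⟶ A} {q : A ⟶ Q} {δ : Q ⟶ (A⟦d⟧)⟦(1 : ℤ)⟧}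
  (hT : Triangle.mk φ q δ ∈ distTriang 𝒯)

include hT

/-- injectivity of a self map -/
theorem inj_of_tri {k k' : ℤ} (h : d + k = k') (hQ : ∀ z : (𝟙_ 𝒯)⟦k' + 1⟧ ⟶ Q, z = 0)
    (y : (𝟙_ 𝒯)⟦k⟧ ⟶ A) (hy : gc h y φ = 0) : y = 0 := by
  have h1 : gc h y (𝟙 (A⟦d⟧)) ≫ φ = 0 := by rw [← gc_comp, Category.id_comp, hy]
  obtain ⟨z, hz⟩ := Triangle.coyoneda_exact₁ _ hT ((gc h y (𝟙 (A⟦d⟧)))⟦(1 : ℤ)⟧') (by
    change (gc h y (𝟙 (A⟦d⟧)))⟦(1 : ℤ)⟧' ≫ φ⟦(1 : ℤ)⟧' = 0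
    rw [← Functor.map_comp, h1, Functor.map_zero])
  have h2 : z = 0 := by
    let e : ((𝟙_ 𝒯)⟦k'⟧)⟦(1 : ℤ)⟧ ≅ (𝟙_ 𝒯)⟦k' + 1⟧ :=
      (shiftFunctorAdd' 𝒯 k' 1 (k' + 1) rfl).symm.app _
    rw [← cancel_epi e.inv, comp_zero]
    exact hQ _
  have h3 : gc h y (𝟙 (A⟦d⟧)) = 0 := by
    apply (shiftFunctor 𝒯 (1 : ℤ)).map_injective
    refine hz.trans ?_
    rw [h2, zero_comp]
    exact (Functor.map_zero _ _ _).symm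
  exact gc_inj h (h3.trans (gc_zero_left _ _).symm)

/-- surjectivity of a self map -/
theorem surj_of_tri {k k' : ℤ} (h : d + k = k') (hQ : ∀ z : (𝟙_ 𝒯)⟦k'⟧ ⟶ Q, z = 0)
    (y : (𝟙_ 𝒯)⟦k'⟧ ⟶ A) : ∃ x : (𝟙_ 𝒯)⟦k⟧ ⟶ A, gc h x φ = y := by
  obtain ⟨y', hy'⟩ := Triangle.coyoneda_exact₂ _ hT y (hQ _)
  change (𝟙_ 𝒯)⟦k'⟧ ⟶ A⟦d⟧ at y'
  replace hy' : y = y' ≫ φ := hy'
  obtain ⟨x, rfl⟩ := gc_surj h y'
  exact ⟨x, by rw [hy', ← gc_comp, Category.id_comp]⟩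

/-- if the self map is bijective on homotopy, then the cofibre is zero -/
theorem zero_of_tri (hinj : ∀ {k k' : ℤ} (h : d + k = k') (y : (𝟙_ 𝒯)⟦k⟧ ⟶ A),
      gc h y φ = 0 → y = 0)
    (hsurj : ∀ {k k' : ℤ} (h : d + k = k') (y : (𝟙_ 𝒯)⟦k'⟧ ⟶ A),
      ∃ x : (𝟙_ 𝒯)⟦k⟧ ⟶ A, gc h x φ = y) {k : ℤ} (z : (𝟙_ 𝒯)⟦k⟧ ⟶ Q) : z = 0 := by
  have h1 : z ≫ δ = 0 := by
    -- a class of `A⟦d⟧⟦1⟧` which dies in `A⟦1⟧`
    let e : ((𝟙_ 𝒯)⟦k - 1⟧)⟦(1 : ℤ)⟧ ≅ (𝟙_ 𝒯)⟦k⟧ :=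
      (shiftFunctorAdd' 𝒯 (k - 1) 1 k (by ring)).symm.app _
    obtain ⟨u, hu⟩ := (shiftFunctor 𝒯 (1 : ℤ)).map_surjective (e.hom ≫ z ≫ δ)
    have h2 : u ≫ φ = 0 := by
      apply (shiftFunctor 𝒯 (1 : ℤ)).map_injective
      have h3 : δ ≫ φ⟦(1 : ℤ)⟧' = 0 := comp_distTriang_mor_zero₃₁ _ hT
      rw [Functor.map_comp, hu, Category.assoc, Category.assoc, h3, comp_zero, comp_zero,
        Functor.map_zero]
    obtain ⟨v, rfl⟩ := gc_surj (show d + (k - 1 - d) = k - 1 by ring) u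
    have h4 : v = 0 := hinj (show d + (k - 1 - d) = k - 1 by ring) v (by
      rw [← h2, ← gc_comp, Category.id_comp])
    rw [← cancel_epi e.hom, ← hu, h4, gc_zero_left, Functor.map_zero, comp_zero]
  obtain ⟨y, hy⟩ := Triangle.coyoneda_exact₃ _ hT z h1
  change (𝟙_ 𝒯)⟦k⟧ ⟶ A at y
  obtain ⟨x, rfl⟩ := hsurj (show d + (k - d) = k by ring) y
  have h5 : φ ≫ q = 0 := comp_distTriang_mor_zero₁₂ _ hT
  refine hy.trans ?_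
  change gc _ x φ ≫ q = 0
  rw [← gc_comp, h5, gc_zero_right]

end tri

variable {R X : 𝒯} [MonObj R] {M : ModStr R X} {d : ℤ} {w : (𝟙_ 𝒯)⟦d⟧ ⟶ R} {V V' : 𝒯}
  {f : V⟦d⟧ ⟶ V} {g : V ⟶ V'}

theorem cm_LR (hd : SignProp 𝒯 d 1) (g : X⟦d⟧ ⟶ X) (f : V⟦d⟧ ⟶ V) : Cm (onL X f) (onR g V) := by
  unfold Cm
  exact (H377.gc_fm_interchange hd rfl rfl g f).symm

/-- `U ⊗ f` on a class of a stage -/
theorem stage_onL (hd : SignProp 𝒯 d 1) {g : X⟦d⟧ ⟶ X} (U : TelD g 0) (j : ℕ) {k k' l l' : ℤ}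
    (h : 0 - (j : ℤ) * d + k' = k) (h₁ : d + k = l) (h₂ : d + k' = l')
    (h₃ : 0 - (j : ℤ) * d + l' = l) (z : (𝟙_ 𝒯)⟦k'⟧ ⟶ X ⊗ V) :
    gc h₁ (gc h z (fm (tensorRight V) (U.ι j))) (onL U.obj f) =
      gc h₃ (gc h₂ z (onL X f)) (fm (tensorRight V) (U.ι j)) := by
  have h4 : d + (0 - (j : ℤ) * d) + k' = l := by omega
  have h5 : 0 - (j : ℤ) * d + d = d + (0 - (j : ℤ) * d) := by ring
  rw [← gc_assoc z (fm (tensorRight V) (U.ι j)) (onL U.obj f) rfl h4 h h₁,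
    ← gc_assoc z (onL X f) (fm (tensorRight V) (U.ι j)) h5 h4 h₂ h₃]
  exact congrArg _ (H377.gc_fm_interchange hd rfl h5 (U.ι j) f)

variable (hd : SignProp 𝒯 d 1) {b : X⟦d⟧ ⟶ X}
  (hN : ∀ {k : ℤ} (y : (𝟙_ 𝒯)⟦k⟧ ⟶ X ⊗ V), Tor (onL X f - onR b V) y)

include hd hN

theorem surj_U (U : TelD b 0) {k l : ℤ} (h₁ : d + k = l) (y : (𝟙_ 𝒯)⟦l⟧ ⟶ U.obj ⊗ V) :
    ∃ x : (𝟙_ 𝒯)⟦k⟧ ⟶ U.obj ⊗ V, gc h₁ x (onL U.obj f) = y := by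
  obtain ⟨j, k', h, z, rfl⟩ := exists_stage V U y
  have hz := hN z
  induction hz generalizing j with
  | zero => exact ⟨0, by rw [gc_zero_left, gc_zero_left]⟩
  | @step k' k'' h' z _ ih =>
    have h2 : 0 - ((j + 1 : ℕ) : ℤ) * d + k'' = l := by push_cast; linarith
    have h3 : 0 - ((j + 1 : ℕ) : ℤ) * d + k' = k := by push_cast; linarith
    obtain ⟨x', hx'⟩ := ih (j + 1) h2
    refine ⟨(show (𝟙_ 𝒯)⟦k⟧ ⟶ U.obj ⊗ V from gc h3 z (fm (tensorRight V) (U.ι (j + 1)))) - x', ?_⟩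
    rw [gc_sub_left, hx', stage_onL hd U (j + 1) h3 h₁ h' h2 z, ι_tr V U j h h' h2 z,
      ← gc_sub_left]
    congr 1
    rw [sub_eq_add_neg (onL X f), gc_add_right, gc_neg_right]
    abel

theorem inj_U (U : TelD b 0) {k l : ℤ} (h₁ : d + k = l) (y : (𝟙_ 𝒯)⟦k⟧ ⟶ U.obj ⊗ V)
    (hy : gc h₁ y (onL U.obj f) = 0) : y = 0 := by
  obtain ⟨j, k', h, z, rfl⟩ := exists_stage V U y
  have h2 : 0 - (j : ℤ) * d + (d + k') = l := by omega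
  rw [stage_onL hd U j h h₁ rfl h2 z] at hy
  have h3 := tor_of_zero V U j h2 _ hy
  have hc : Cm (onL X f) (onR b V) := cm_LR hd b f
  have h4 : Tor (onL X f) z := .step rfl z ((tor_iff hc hN _).2 h3)
  exact ((tor_iff hc hN _).1 h4).ι_zero V U j h

theorem zero_U (U : TelD b 0) {g : V ⟶ V'}
    (hT : ∃ δ, Triangle.mk (onL U.obj f) (U.obj ◁ g) δ ∈ distTriang 𝒯) {k : ℤ}
    (z : (𝟙_ 𝒯)⟦k⟧ ⟶ U.obj ⊗ V') : z = 0 := by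
  obtain ⟨δ, hT⟩ := hT
  exact zero_of_tri hT (fun h y hy => inj_U hd hN U h y hy) (fun h y => surj_U hd hN U h y) z

theorem tor_V' {g : V ⟶ V'}
    (hT : ∀ Z : 𝒯, ∃ δ, Triangle.mk (onL Z f) (Z ◁ g) δ ∈ distTriang 𝒯) {k : ℤ}
    (z : (𝟙_ 𝒯)⟦k⟧ ⟶ X ⊗ V') : Tor (onR b V') z := by
  let U : TelD b 0 := tel _
  exact ((isLoc_tel U).tor V' z).1 (zero_U hd hN U (hT U.obj) _)

theorem cmp_high {U : 𝒯} {ι : X ⟶ U} (hι : IsLoc b ι) (hd0 : 0 < d) {g : V ⟶ V'}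
    (hT : ∀ Z : 𝒯, ∃ δ, Triangle.mk (onL Z f) (Z ◁ g) δ ∈ distTriang 𝒯) {E : ℤ → Prop}
    (hE : ∀ k, E (k + d) ↔ E k) (hV : PiInHigh E (X ⊗ V')) :
    ∃ T : ℤ, ∀ k, T ≤ k → ¬ E (k + 1) →
      (∀ y : (𝟙_ 𝒯)⟦k⟧ ⟶ X ⊗ V, y ≫ ι ▷ V = 0 → y = 0) ∧
      (∀ z : (𝟙_ 𝒯)⟦k + 1⟧ ⟶ U ⊗ V, ∃ x : (𝟙_ 𝒯)⟦k + 1⟧ ⟶ X ⊗ V, x ≫ ι ▷ V = z) := by
  obtain ⟨T, hT₀⟩ := hV
  obtain ⟨δ, hX⟩ := hT X
  have hc : Cm (onL X f) (onR b V) := cm_LR hd b f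
  refine ⟨T, fun k hk hkE => ⟨fun y hy => ?_, fun z => ?_⟩⟩
  · have h1 : Tor (onL X f) y := (tor_iff hc hN _).2 ((hι.tor V y).1 hy)
    refine h1.eq_zero (E := fun k => T ≤ k ∧ ¬ E (k + 1)) (fun k hk => ⟨by omega, ?_⟩)
      (fun k k' h hk y hy => ?_) ⟨hk, hkE⟩
    · rw [show d + k + 1 = k + 1 + d by ring, hE]
      exact hk.2
    · refine inj_of_tri hX h (hT₀ _ (by omega) ?_) y hy
      rw [← h, show d + k + 1 = k + 1 + d by ring, hE]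
      exact hk.2
  · refine hι.onto V (fun i k₁ k₂ h₁ h y => ?_) z
    refine onto_mod hc hN h (fun y => surj_of_tri hX h (hT₀ _ ?_ ?_) y) y
    · have h2 : 0 ≤ (i : ℤ) * d := by positivity
      omega
    · have h3 : ∀ i : ℕ, ¬ E (k + 1 + i * d) := by
        intro i
        induction i with
        | zero => simpa using hkE
        | succ i ih =>
          have h4 : k + 1 + ((i + 1 : ℕ) : ℤ) * d = k + 1 + i * d + d := by push_cast; ring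
          rw [h4, hE]
          exact ih
      have h5 := h3 (i + 1)
      have h6 : k₂ = k + 1 + ((i + 1 : ℕ) : ℤ) * d := by push_cast; linarith
      rw [h6]
      exact h5

omit hd hN

/-- `StatementC` from the local nilpotence -/
theorem statementC_of (hN : ∀ (R X : 𝒯) [MonObj R] [IsCommMonObj R] (M : ModStr R X) {d : ℤ}
    (w : (𝟙_ 𝒯)⟦d⟧ ⟶ R) (V : 𝒯) (f : V⟦d⟧ ⟶ V), SignProp 𝒯 d 1 → Induces w f →
      ∀ {k : ℤ} (y : (𝟙_ 𝒯)⟦k⟧ ⟶ X ⊗ V), Tor (onL X f - onR (actM M w) V) y) :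
    StatementC 𝒯 := by
  intro R X _ _ M d w U ι hι hd hd0 V V' f g hT hw
  have hN' := fun {k : ℤ} (y : (𝟙_ 𝒯)⟦k⟧ ⟶ X ⊗ V) => hN R X M w V f hd hw y
  exact ⟨fun E hE hV => cmp_high hd hN' hι hd0 hT hE hV, fun k y => tor_V' hd hN' hT y⟩

end Vale.Agent.P221.H45
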