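import Vale.Agent.P221.T.Ext
import Vale.Agent.P221.H395.Comp
import Vale.Agent.P093.N2.ChiDual
import Vale.Agent.P251.S.TelTens

/-!
# P221 (helper45): interfaces for the missing class theorem

* `actM M w` : the action of `w ∈ π_d R` on a module `M`;
* `Tor g y` : `y` is killed by a power of `g`;
* `IsLoc g ι` : `ι : X ⟶ U` is the localisation of `X` at `g : X⟦d⟧ ⟶ X`, on `π_* (- ⊗ V)`;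
* `Cls q i` : the residue class of `i`.
-/

open CategoryTheory MonoidalCategory MonObj Limits Pretriangulated
open Vale.Agent.P251.T Vale.Agent.P251.M Vale.Agent.P251.S

set_option linter.unusedSectionVars false

universe u

noncomputable section

namespace Vale.Agent.P221.H45

open Vale.Agent.P221.T

variable {𝒯 : Type u} [Category.{0} 𝒯] [Preadditive 𝒯] [HasZeroObject 𝒯]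
    [HasShift 𝒯 ℤ] [∀ n : ℤ, (shiftFunctor 𝒯 n).Additive] [Pretriangulated 𝒯] [IsTriangulated 𝒯]
    [MonoidalCategory 𝒯] [SymmetricCategory 𝒯] [TensorTriangulated 𝒯] [MonoidalClosed 𝒯]
    [HasCoproducts.{0} 𝒯] [HasProducts.{0} 𝒯] [StableCat 𝒯]

/-- the action of `w ∈ π_d R` on a module -/
def actM {R X : 𝒯} [MonObj R] (M : ModStr R X) {d : ℤ} (w : (𝟙_ 𝒯)⟦d⟧ ⟶ R) : X⟦d⟧ ⟶ X :=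
  ((λ_ X).inv)⟦d⟧' ≫ fm (tensorRight X) w ≫ M.act

/-- the self map `X ⊗ V` of `g : X⟦d⟧ ⟶ X` -/
abbrev onR {X : 𝒯} {d : ℤ} (g : X⟦d⟧ ⟶ X) (V : 𝒯) : (X ⊗ V)⟦d⟧ ⟶ X ⊗ V :=
  fm (tensorRight V) g

/-- the self map `X ⊗ f` of `f : V⟦d⟧ ⟶ V` -/
abbrev onL {V : 𝒯} {d : ℤ} (X : 𝒯) (f : V⟦d⟧ ⟶ V) : (X ⊗ V)⟦d⟧ ⟶ X ⊗ V :=
  fm (tensorLeft X) f

/-- `y` is killed by a power of `g` -/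
inductive Tor {X : 𝒯} {d : ℤ} (g : X⟦d⟧ ⟶ X) : ∀ {k : ℤ}, ((𝟙_ 𝒯)⟦k⟧ ⟶ X) → Prop
  | zero {k : ℤ} : Tor g (0 : (𝟙_ 𝒯)⟦k⟧ ⟶ X)
  | step {k k' : ℤ} (h : d + k = k') (y : (𝟙_ 𝒯)⟦k⟧ ⟶ X) : Tor g (gc h y g) → Tor g y

/-- `ι : X ⟶ U` is the localisation of `X` at `g : X⟦d⟧ ⟶ X` -/
structure IsLoc {X U : 𝒯} {d : ℤ} (g : X⟦d⟧ ⟶ X) (ι : X ⟶ U) : Prop where
  /-- the kernel of `π_* (X ⊗ V) ⟶ π_* (U ⊗ V)` is the torsion -/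
  tor : ∀ (V : 𝒯) {k : ℤ} (y : (𝟙_ 𝒯)⟦k⟧ ⟶ X ⊗ V), y ≫ ι ▷ V = 0 ↔ Tor (onR g V) y
  /-- if `g` is onto modulo torsion in the degrees `k + (i + 1) d`, then `π_k (X ⊗ V)` maps onto
  `π_k (U ⊗ V)` -/
  onto : ∀ (V : 𝒯) {k : ℤ}, (∀ (i : ℕ) {k₁ k₂ : ℤ}, k₁ = k + i * d → ∀ (h : d + k₁ = k₂)
    (y : (𝟙_ 𝒯)⟦k₂⟧ ⟶ X ⊗ V), ∃ x : (𝟙_ 𝒯)⟦k₁⟧ ⟶ X ⊗ V, Tor (onR g V) (y - gc h x (onR g V))) →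
    ∀ z : (𝟙_ 𝒯)⟦k⟧ ⟶ U ⊗ V, ∃ x : (𝟙_ 𝒯)⟦k⟧ ⟶ X ⊗ V, x ≫ ι ▷ V = z
  /-- if everything in the degrees `k + i d` is torsion, then `π_k (U ⊗ V) = 0` -/
  van : ∀ (V : 𝒯) {k : ℤ}, (∀ (i : ℕ) {k₁ : ℤ}, k₁ = k + i * d →
    ∀ y : (𝟙_ 𝒯)⟦k₁⟧ ⟶ X ⊗ V, Tor (onR g V) y) → ∀ z : (𝟙_ 𝒯)⟦k⟧ ⟶ U ⊗ V, z = 0

/-- `π_k X = 0` for all `k` with `¬ E k` -/
def PiIn (E : ℤ → Prop) (X : 𝒯) : Prop := ∀ k, ¬ E k → ∀ y : (𝟙_ 𝒯)⟦k⟧ ⟶ X, y = 0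

/-- `π_k X = 0` for all large `k` with `¬ E k` -/
def PiInHigh (E : ℤ → Prop) (X : 𝒯) : Prop :=
  ∃ T : ℤ, ∀ k, T ≤ k → ¬ E k → ∀ y : (𝟙_ 𝒯)⟦k⟧ ⟶ X, y = 0

/-! ### the pieces -/

/-- [A] : the output of the construction of `U = M_w` and `Y ⟶ U` -/
structure LocData {R X : 𝒯} [MonObj R] (M : ModStr R X) (q i₀ : ℤ) {d : ℤ}
    (w : (𝟙_ 𝒯)⟦d⟧ ⟶ R) where
  /-- the localisation `M_w` -/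
  U : 𝒯
  /-- the sum of shifts of `R_w` -/
  Y : 𝒯
  /-- the localisation map -/
  ι : X ⟶ U
  /-- the map -/
  g : Y ⟶ U
  isLoc : IsLoc (actM M w) ι
  onto : ∀ {k : ℤ}, q ∣ k - i₀ → ∀ z : (𝟙_ 𝒯)⟦k⟧ ⟶ U, ∃ y : (𝟙_ 𝒯)⟦k⟧ ⟶ Y, y ≫ g = z
  cls : ∀ (V : 𝒯) (E : ℤ → Prop), (∀ k k', q ∣ k - k' → E k → E k') → PiIn E (R ⊗ V) →
    PiIn (fun k => E (k - i₀)) (Y ⊗ V)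
  zero : ∀ V : 𝒯, (∀ (k : ℤ) (y : (𝟙_ 𝒯)⟦k⟧ ⟶ R ⊗ V),
    Tor (onR (actM (ModStr.self R) w) V) y) → IsZero (Y ⊗ V)

/-- [A] to prove: `LocData` exists (`R` commutative, `q ∣ d`, `0 < d`, `SignProp`) -/
def StatementA (𝒯 : Type u) [Category.{0} 𝒯] [Preadditive 𝒯] [HasZeroObject 𝒯]
    [HasShift 𝒯 ℤ] [∀ n : ℤ, (shiftFunctor 𝒯 n).Additive] [Pretriangulated 𝒯] [IsTriangulated 𝒯]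
    [MonoidalCategory 𝒯] [SymmetricCategory 𝒯] [TensorTriangulated 𝒯] [MonoidalClosed 𝒯]
    [HasCoproducts.{0} 𝒯] [HasProducts.{0} 𝒯] [StableCat 𝒯] : Prop :=
  ∀ (R X : 𝒯) [MonObj R] [IsCommMonObj R] (M : ModStr R X) (q i₀ : ℤ) {d : ℤ}
    (w : (𝟙_ 𝒯)⟦d⟧ ⟶ R), q ∣ d → SignProp 𝒯 d 1 → Nonempty (LocData M q i₀ w)

/-- [B] : the output of the construction of `Φ ⟶ X` -/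
structure PhiData {R X : 𝒯} [MonObj R] {M : ModStr R X} (p : ℕ) (r T : ℤ) {q i₀ : ℤ} {d : ℤ}
    {w : (𝟙_ 𝒯)⟦d⟧ ⟶ R} (A : LocData M q i₀ w) where
  /-- the object -/
  Φ : 𝒯
  /-- the map -/
  a : Φ ⟶ X
  pc : H395.PComplete p Φ
  /-- the missing classes -/
  van : ∀ {k s : ℤ}, T ≤ k → 1 ≤ s → s ≤ r → q ∣ k - (i₀ - s) → ∀ y : (𝟙_ 𝒯)⟦k⟧ ⟶ Φ, y = 0
  onto : ∀ {k : ℤ}, q ∣ k - i₀ → ∀ x : (𝟙_ 𝒯)⟦k⟧ ⟶ X, ∃ y : (𝟙_ 𝒯)⟦k⟧ ⟶ Φ, y ≫ a = x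
  /-- vanishing of `π_k (Φ ⊗ V)` for `p ^ e`-torsion `V` -/
  ten : ∀ (V : 𝒯) (e : ℕ), ((p : ℤ) ^ e) • 𝟙 V = 0 → ∀ k : ℤ,
    (∀ y : (𝟙_ 𝒯)⟦k⟧ ⟶ X ⊗ V, y ≫ A.ι ▷ V = 0 → y = 0) →
    (∀ z : (𝟙_ 𝒯)⟦k + 1⟧ ⟶ A.U ⊗ V, ∃ x : (𝟙_ 𝒯)⟦k + 1⟧ ⟶ X ⊗ V, x ≫ A.ι ▷ V = z) →
    (∀ y : (𝟙_ 𝒯)⟦k⟧ ⟶ A.Y ⊗ V, y = 0) → ∀ y : (𝟙_ 𝒯)⟦k⟧ ⟶ Φ ⊗ V, y = 0

/-- [B] to prove: `PhiData` exists. `C` = Moore spectrum, `q ≥ 3`, `1 ≤ r < q` -/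
def StatementB (𝒯 : Type u) [Category.{0} 𝒯] [Preadditive 𝒯] [HasZeroObject 𝒯]
    [HasShift 𝒯 ℤ] [∀ n : ℤ, (shiftFunctor 𝒯 n).Additive] [Pretriangulated 𝒯] [IsTriangulated 𝒯]
    [MonoidalCategory 𝒯] [SymmetricCategory 𝒯] [TensorTriangulated 𝒯] [MonoidalClosed 𝒯]
    [HasCoproducts.{0} 𝒯] [HasProducts.{0} 𝒯] [StableCat 𝒯] : Prop :=
  ∀ (R X : 𝒯) [MonObj R] (M : ModStr R X) (p : ℕ) (_ : p.Prime) (q i₀ : ℤ) {d : ℤ}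
    (w : (𝟙_ 𝒯)⟦d⟧ ⟶ R) (A : LocData M q i₀ w) (r T : ℤ) (C : 𝒯) (i : 𝟙_ 𝒯 ⟶ C)
    (δ : C ⟶ (𝟙_ 𝒯)⟦(1 : ℤ)⟧), Triangle.mk ((p : ℤ) • 𝟙 (𝟙_ 𝒯)) i δ ∈ distTriang 𝒯 →
    H395.PComplete p X → q ∣ d → 0 < d → 3 ≤ q → 1 ≤ r → r < q →
    PiIn (fun k => q ∣ k) (R ⊗ C) →
    (∀ {k s : ℤ}, T ≤ k → 1 ≤ s → s ≤ r → q ∣ k - (i₀ - s) → ∀ y : (𝟙_ 𝒯)⟦k⟧ ⟶ X, y = 0) →
    Nonempty (PhiData p r T A)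

/-- `f : V⟦d⟧ ⟶ V` induces the multiplication by `w` on `π_* (R ⊗ V)` -/
def Induces {R : 𝒯} [MonObj R] {V : 𝒯} {d : ℤ} (w : (𝟙_ 𝒯)⟦d⟧ ⟶ R) (f : V⟦d⟧ ⟶ V) : Prop :=
  ∀ {k k' : ℤ} (h : d + k = k') (y : (𝟙_ 𝒯)⟦k⟧ ⟶ R ⊗ V),
    gc h y (onL R f) = gc h y (onR (actM (ModStr.self R) w) V)

/-- [C1] to prove: the comparison of `M ⊗ f` and `w ⊗ V`.  `E` is periodic -/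
def StatementC (𝒯 : Type u) [Category.{0} 𝒯] [Preadditive 𝒯] [HasZeroObject 𝒯]
    [HasShift 𝒯 ℤ] [∀ n : ℤ, (shiftFunctor 𝒯 n).Additive] [Pretriangulated 𝒯] [IsTriangulated 𝒯]
    [MonoidalCategory 𝒯] [SymmetricCategory 𝒯] [TensorTriangulated 𝒯] [MonoidalClosed 𝒯]
    [HasCoproducts.{0} 𝒯] [HasProducts.{0} 𝒯] [StableCat 𝒯] : Prop :=
  ∀ (R X : 𝒯) [MonObj R] [IsCommMonObj R] (M : ModStr R X) {d : ℤ} (w : (𝟙_ 𝒯)⟦d⟧ ⟶ R)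
    (U : 𝒯) (ι : X ⟶ U), IsLoc (actM M w) ι → SignProp 𝒯 d 1 → 0 < d →
    ∀ (V V' : 𝒯) (f : V⟦d⟧ ⟶ V) (g : V ⟶ V'),
      (∀ Z : 𝒯, ∃ δ, Triangle.mk (onL Z f) (Z ◁ g) δ ∈ distTriang 𝒯) → Induces w f →
      (∀ E : ℤ → Prop, (∀ k, E (k + d) ↔ E k) → PiInHigh E (X ⊗ V') →
        ∃ T : ℤ, ∀ k, T ≤ k → ¬ E (k + 1) →
          (∀ y : (𝟙_ 𝒯)⟦k⟧ ⟶ X ⊗ V, y ≫ ι ▷ V = 0 → y = 0) ∧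
          (∀ z : (𝟙_ 𝒯)⟦k + 1⟧ ⟶ U ⊗ V, ∃ x : (𝟙_ 𝒯)⟦k + 1⟧ ⟶ X ⊗ V, x ≫ ι ▷ V = z)) ∧
      (∀ (k : ℤ) (y : (𝟙_ 𝒯)⟦k⟧ ⟶ X ⊗ V'), Tor (onR (actM M w) V') y)

/-- [D] : `Z = ihom R X` -/
structure HomData (R X : 𝒯) [MonObj R] (p : ℕ) where
  /-- the object `ihom R X` -/
  Z : 𝒯
  /-- its module structure -/
  M : ModStr R Z
  /-- the evaluation at the unit of `R` -/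
  ev : Z ⟶ X
  pc : H395.PComplete p Z
  lift : ∀ {k : ℤ} (x' : R⟦k⟧ ⟶ X), ∃ z : (𝟙_ 𝒯)⟦k⟧ ⟶ Z, z ≫ ev = (η[R])⟦k⟧' ≫ x'
  van : ∀ {k : ℤ}, (∀ y : R⟦k⟧ ⟶ X, y = 0) → ∀ z : (𝟙_ 𝒯)⟦k⟧ ⟶ Z, z = 0
  ten : ∀ V : 𝒯, Vale.Agent.P093.N2.Dz V → ∀ {k : ℤ}, (∀ y : R⟦k⟧ ⟶ X ⊗ V, y = 0) →
    ∀ z : (𝟙_ 𝒯)⟦k⟧ ⟶ Z ⊗ V, z = 0

/-- [D] to prove -/
def StatementD (𝒯 : Type u) [Category.{0} 𝒯] [Preadditive 𝒯] [HasZeroObject 𝒯]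
    [HasShift 𝒯 ℤ] [∀ n : ℤ, (shiftFunctor 𝒯 n).Additive] [Pretriangulated 𝒯] [IsTriangulated 𝒯]
    [MonoidalCategory 𝒯] [SymmetricCategory 𝒯] [TensorTriangulated 𝒯] [MonoidalClosed 𝒯]
    [HasCoproducts.{0} 𝒯] [HasProducts.{0} 𝒯] [StableCat 𝒯] : Prop :=
  ∀ (R X : 𝒯) [MonObj R] [IsCommMonObj R] (p : ℕ), H395.PComplete p X → Nonempty (HomData R X p)

/-- [D'] : the facts about `R = BP` and `p`-complete objects (from `H626.van_high`) -/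
structure RData (R : 𝒯) [MonObj R] (p : ℕ) (q : ℤ) : Prop where
  van : ∀ Y : 𝒯, H395.PComplete p Y → ∀ E : ℤ → Prop, (∀ k j, E (k + q * j) ↔ E k) → ∀ T : ℤ,
    (∀ k, T ≤ k → ¬ E k → ∀ y : (𝟙_ 𝒯)⟦k⟧ ⟶ Y, y = 0) →
      ∀ k, T ≤ k → ¬ E k → ∀ y : R⟦k⟧ ⟶ Y, y = 0
  ext : ∀ Y : 𝒯, H395.PComplete p Y → ∀ T i₀ : ℤ,
    (∀ k, T ≤ k → q ∣ k - (i₀ - 1) → ∀ y : (𝟙_ 𝒯)⟦k⟧ ⟶ Y, y = 0) →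
      ∀ k, T ≤ k → q ∣ k - i₀ → ∀ x : (𝟙_ 𝒯)⟦k⟧ ⟶ Y, ∃ x' : R⟦k⟧ ⟶ Y, (η[R])⟦k⟧' ≫ x' = x

/-- a tower of generalised Moore spectra (`V 1 = S / p^e`, …, `V (n + 1)`) -/
structure TowData (R : 𝒯) [MonObj R] (p : ℕ) (q : ℤ) (n : ℕ) where
  /-- the stages -/
  V : ℕ → 𝒯
  /-- degrees -/
  d : ℕ → ℤ
  /-- the elements `v_j ^ {e_j}` -/
  w : ∀ j, (𝟙_ 𝒯)⟦d j⟧ ⟶ R
  /-- the self maps -/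
  f : ∀ j, (V j)⟦d j⟧ ⟶ V j
  /-- the maps to the cofibres -/
  g : ∀ j, V j ⟶ V (j + 1)
  /-- the exponent of `V 1` -/
  e : ℕ
  /-- an exponent which kills all stages -/
  et : ℕ
  tri : ∀ j, 1 ≤ j → j ≤ n → ∀ Z : 𝒯,
    ∃ δ, Triangle.mk (onL Z (f j)) (Z ◁ g j) δ ∈ distTriang 𝒯
  ind : ∀ j, 1 ≤ j → j ≤ n → Induces (w j) (f j)
  deg : ∀ j, 1 ≤ j → j ≤ n → q ∣ d j ∧ 0 < d j ∧ SignProp 𝒯 (d j) 1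
  dz : ∀ j, 1 ≤ j → j ≤ n + 1 → Vale.Agent.P093.N2.Dz (V j)
  tor : ∀ j, 1 ≤ j → j ≤ n + 1 → ((p : ℤ) ^ et) • 𝟙 (V j) = 0
  cls : ∀ j, 1 ≤ j → j ≤ n → PiIn (fun k => q ∣ k) (R ⊗ V j)
  base : ∀ Z : 𝒯, ∃ g δ, Triangle.mk (((p : ℤ) ^ e) • 𝟙 Z) (g : Z ⟶ Z ⊗ V 1) δ ∈ distTriang 𝒯

end Vale.Agent.P221.H45
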