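import Vale.Agent.P221.H45.TelA

/-!
# P221 (helper45): commuting graded self maps with locally nilpotent difference
-/

open CategoryTheory MonoidalCategory MonObj Limits Pretriangulated
open Vale.Agent.P251.T Vale.Agent.P251.M Vale.Agent.P251.S

set_option linter.unusedSectionVars false

universe u

noncomputable section

namespace Vale.Agent.P221.H45

open Vale.Agent.P221.T

variable {𝒯 : Type u} [Category.{0} 𝒯] [Preadditive 𝒯] [HasZeroObject 𝒯]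
    [HasShift 𝒯 ℤ] [∀ n : ℤ, (shiftFunctor 𝒯 n).Additive] [Pretriangulated 𝒯] [IsTriangulated 𝒯]
    [MonoidalCategory 𝒯] [SymmetricCategory 𝒯] [TensorTriangulated 𝒯] [MonoidalClosed 𝒯]
    [HasCoproducts.{0} 𝒯] [HasProducts.{0} 𝒯] [StableCat 𝒯]

variable {A : 𝒯} {d : ℤ}

/-- two graded self maps commute -/
def Cm (g g' : A⟦d⟧ ⟶ A) : Prop := gc rfl g g' = gc rfl g' g

theorem Cm.symm {g g' : A⟦d⟧ ⟶ A} (h : Cm g g') : Cm g' g := Eq.symm h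

theorem Cm.refl (g : A⟦d⟧ ⟶ A) : Cm g g := rfl

theorem Cm.add {g g' g'' : A⟦d⟧ ⟶ A} (h : Cm g g') (h' : Cm g g'') : Cm g (g' + g'') := by
  unfold Cm at *
  rw [gc_add_left, gc_add_right, h, h']

theorem gc_neg_left {P Q Y : 𝒯} {m k k' : ℤ} (h : k + m = k') (γ : P⟦m⟧ ⟶ Q) (a : Q⟦k⟧ ⟶ Y) :
    gc h (-γ) a = -gc h γ a := by
  simp only [gc, Functor.map_neg, Preadditive.neg_comp, Preadditive.comp_neg]

theorem gc_neg_right {P Q Y : 𝒯} {m k k' : ℤ} (h : k + m = k') (γ : P⟦m⟧ ⟶ Q) (a : Q⟦k⟧ ⟶ Y) :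
    gc h γ (-a) = -gc h γ a := by
  simp only [gc, Preadditive.comp_neg]

theorem Cm.neg {g g' : A⟦d⟧ ⟶ A} (h : Cm g g') : Cm g (-g') := by
  unfold Cm at *
  rw [gc_neg_left, gc_neg_right, h]

theorem Cm.sub {g g' g'' : A⟦d⟧ ⟶ A} (h : Cm g g') (h' : Cm g g'') : Cm g (g' - g'') := by
  rw [sub_eq_add_neg]
  exact h.add h'.neg

/-- commuting actions on classes -/
theorem Cm.gc {g g' : A⟦d⟧ ⟶ A} (h : Cm g g') {k k' k'' : ℤ} (h₁ : d + k = k')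
    (h₂ : d + k' = k'') (y : (𝟙_ 𝒯)⟦k⟧ ⟶ A) : gc h₂ (gc h₁ y g) g' = gc h₂ (gc h₁ y g') g := by
  have h3 : d + d + k = k'' := by omega
  rw [← gc_assoc y g g' rfl h3 h₁ h₂, ← gc_assoc y g' g rfl h3 h₁ h₂]
  exact congrArg _ h

variable {g : A⟦d⟧ ⟶ A}

theorem Tor.next {k k' : ℤ} {y : (𝟙_ 𝒯)⟦k⟧ ⟶ A} (hy : Tor g y) (h : d + k = k') :
    Tor g (gc h y g) := by
  cases hy with
  | zero => rw [gc_zero_left]; exact .zero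
  | step h' _ hy => subst h; subst h'; exact hy

theorem Tor.add {k : ℤ} {y : (𝟙_ 𝒯)⟦k⟧ ⟶ A} (hy : Tor g y) :
    ∀ {z : (𝟙_ 𝒯)⟦k⟧ ⟶ A}, Tor g z → Tor g (y + z) := by
  induction hy with
  | zero => intro z hz; rwa [zero_add]
  | step h y _ ih =>
    intro z hz
    refine .step h _ ?_
    rw [gc_add_left]
    exact ih (hz.next h)

theorem Tor.neg {k : ℤ} {y : (𝟙_ 𝒯)⟦k⟧ ⟶ A} (hy : Tor g y) : Tor g (-y) := by
  induction hy with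
  | zero => rw [neg_zero]; exact .zero
  | step h y _ ih =>
    refine .step h _ ?_
    rw [gc_neg_left]
    exact ih

theorem Tor.neg_map {k : ℤ} {y : (𝟙_ 𝒯)⟦k⟧ ⟶ A} (hy : Tor g y) : Tor (-g) y := by
  induction hy with
  | zero => exact .zero
  | step h y _ ih =>
    refine .step h _ ?_
    rw [gc_neg_right]
    exact ih.neg

/-- `z` is obtained from `y` by iterating `δ` -/
inductive Orb (δ : A⟦d⟧ ⟶ A) : ∀ {k k' : ℤ}, ((𝟙_ 𝒯)⟦k⟧ ⟶ A) → ((𝟙_ 𝒯)⟦k'⟧ ⟶ A) → Prop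
  | refl {k : ℤ} (y : (𝟙_ 𝒯)⟦k⟧ ⟶ A) : Orb δ y y
  | step {k k' k'' : ℤ} (h : d + k' = k'') {y : (𝟙_ 𝒯)⟦k⟧ ⟶ A} {z : (𝟙_ 𝒯)⟦k'⟧ ⟶ A} :
      Orb δ y z → Orb δ y (gc h z δ)

theorem Orb.comm {b δ : A⟦d⟧ ⟶ A} (hc : Cm b δ) {k k' : ℤ} {y : (𝟙_ 𝒯)⟦k⟧ ⟶ A}
    {z : (𝟙_ 𝒯)⟦k'⟧ ⟶ A} (h : Orb δ y z) {l l' : ℤ} (hl : d + k = l) (hl' : d + k' = l') :
    Orb δ (gc hl y b) (gc hl' z b) := by
  induction h generalizing l l' with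
  | refl y => subst hl; subst hl'; exact .refl _
  | @step k' k'' h y z _ ih =>
    subst h
    rw [← hc.gc rfl hl' z]
    exact .step _ (ih hl rfl)

/-- **torsion of a sum** -/
theorem tor_add {b δ : A⟦d⟧ ⟶ A} (hc : Cm b δ)
    (hδ : ∀ {k : ℤ} (y : (𝟙_ 𝒯)⟦k⟧ ⟶ A), Tor δ y) {k : ℤ} {y : (𝟙_ 𝒯)⟦k⟧ ⟶ A} (hy : Tor b y) :
    Tor (b + δ) y := by
  suffices h : ∀ {k' : ℤ} (z : (𝟙_ 𝒯)⟦k'⟧ ⟶ A), Orb δ y z → Tor (b + δ) z from h y (.refl y)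
  induction hy with
  | @zero k =>
    intro k' z hz
    have h1 : z = 0 := by
      generalize hy : (0 : (𝟙_ 𝒯)⟦k⟧ ⟶ A) = y at hz
      induction hz with
      | refl y => exact hy.symm
      | step h _ ih => rw [ih hy, gc_zero_left]
    rw [h1]
    exact .zero
  | @step k l h y _ ih =>
    intro k' z hz
    have h1 := hδ z
    induction h1 with
    | zero => exact .zero
    | @step k₁ k₂ h' z _ ih' =>
      refine .step h' z ?_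
      rw [gc_add_right]
      exact (ih _ (hz.comm hc h h')).add (ih' (.step h' hz))

/-- torsion for two commuting maps with locally nilpotent difference -/
theorem tor_iff {φ b : A⟦d⟧ ⟶ A} (hc : Cm φ b)
    (hδ : ∀ {k : ℤ} (y : (𝟙_ 𝒯)⟦k⟧ ⟶ A), Tor (φ - b) y) {k : ℤ} (y : (𝟙_ 𝒯)⟦k⟧ ⟶ A) :
    Tor φ y ↔ Tor b y := by
  constructor
  · intro h
    have h1 := tor_add (b := φ) (δ := -(φ - b)) ((Cm.refl φ).sub hc).neg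
      (fun y => (hδ y).neg_map) h
    rwa [neg_sub, add_sub_cancel] at h1
  · intro h
    have h1 := tor_add (b := b) (δ := φ - b) (hc.symm.sub (Cm.refl b)) hδ h
    rwa [add_sub_cancel] at h1

/-- `u` is a power of `φ` times `y` -/
inductive Pw (φ : A⟦d⟧ ⟶ A) : ∀ {k k' : ℤ}, ((𝟙_ 𝒯)⟦k⟧ ⟶ A) → ((𝟙_ 𝒯)⟦k'⟧ ⟶ A) → Prop
  | refl {k : ℤ} (y : (𝟙_ 𝒯)⟦k⟧ ⟶ A) : Pw φ y y
  | step {k k' k'' : ℤ} (h : d + k = k') {y : (𝟙_ 𝒯)⟦k⟧ ⟶ A} {u : (𝟙_ 𝒯)⟦k''⟧ ⟶ A} :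
      Pw φ (gc h y φ) u → Pw φ y u

theorem Pw.tor {φ : A⟦d⟧ ⟶ A} {k k' : ℤ} {y : (𝟙_ 𝒯)⟦k⟧ ⟶ A} {u : (𝟙_ 𝒯)⟦k'⟧ ⟶ A}
    (h : Pw φ y u) (hu : u = 0) : Tor φ y := by
  induction h with
  | refl y => rw [hu]; exact .zero
  | step h _ ih => exact .step h _ (ih hu)

theorem Pw.comm {φ δ : A⟦d⟧ ⟶ A} (hc : Cm φ δ) {k k' : ℤ} {y : (𝟙_ 𝒯)⟦k⟧ ⟶ A}
    {u : (𝟙_ 𝒯)⟦k'⟧ ⟶ A} (h : Pw φ y u) {l l' : ℤ} (hl : d + k = l) (hl' : d + k' = l') :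
    Pw φ (T.gc hl y δ) (T.gc hl' u δ) := by
  induction h generalizing l with
  | refl y => subst hl; subst hl'; exact .refl _
  | @step k k' k'' h y u _ ih =>
    refine .step (rfl : d + l = d + l) ?_
    subst hl
    rw [hc.symm.gc (rfl : d + k = d + k) rfl y]
    subst h
    exact ih rfl hl'

/-- **surjectivity modulo torsion** -/
theorem onto_mod {φ b : A⟦d⟧ ⟶ A} (hc : Cm φ b)
    (hδ : ∀ {k : ℤ} (y : (𝟙_ 𝒯)⟦k⟧ ⟶ A), Tor (φ - b) y) {k₁ k₂ : ℤ} (h : d + k₁ = k₂)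
    (hφ : ∀ y : (𝟙_ 𝒯)⟦k₂⟧ ⟶ A, ∃ x : (𝟙_ 𝒯)⟦k₁⟧ ⟶ A, gc h x φ = y)
    (y : (𝟙_ 𝒯)⟦k₂⟧ ⟶ A) : ∃ x : (𝟙_ 𝒯)⟦k₁⟧ ⟶ A, Tor b (y - gc h x b) := by
  have hc' : Cm φ (φ - b) := (Cm.refl φ).sub hc
  suffices H : ∀ {l : ℤ} (u : (𝟙_ 𝒯)⟦l⟧ ⟶ A), Tor (φ - b) u → ∀ y : (𝟙_ 𝒯)⟦k₂⟧ ⟶ A,
      Pw φ y u → ∃ x : (𝟙_ 𝒯)⟦k₁⟧ ⟶ A, Tor b (y - gc h x b) from H y (hδ y) y (.refl y)
  intro l u hu
  induction hu with
  | zero =>
    intro y hy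
    refine ⟨0, ?_⟩
    rw [gc_zero_left, sub_zero]
    exact (tor_iff hc hδ y).1 (hy.tor rfl)
  | @step l l' h' u _ ih =>
    intro y hy
    obtain ⟨x, rfl⟩ := hφ y
    have h1 : T.gc h x φ - T.gc h x b = T.gc h x (φ - b) := by
      rw [sub_eq_add_neg, sub_eq_add_neg, gc_add_right, gc_neg_right]
    have h2 : Pw φ (T.gc h x (φ - b)) (T.gc h' u (φ - b)) := by
      refine .step (rfl : d + k₂ = d + k₂) ?_
      rw [← hc'.gc h rfl x]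
      exact hy.comm hc' rfl h'
    obtain ⟨x', hx'⟩ := ih _ h2
    refine ⟨x + x', ?_⟩
    have h3 : T.gc h x φ - T.gc h (x + x') b = T.gc h x (φ - b) - T.gc h x' b := by
      rw [← h1, gc_add_left]
      abel
    rw [h3]
    exact hx'

/-- torsion classes vanish if the map is injective in all later degrees -/
theorem Tor.eq_zero {φ : A⟦d⟧ ⟶ A} {E : ℤ → Prop} (hE : ∀ k, E k → E (d + k))
    (hinj : ∀ k k' (h : d + k = k'), E k → ∀ y : (𝟙_ 𝒯)⟦k⟧ ⟶ A, gc h y φ = 0 → y = 0)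
    {k : ℤ} {y : (𝟙_ 𝒯)⟦k⟧ ⟶ A} (hy : Tor φ y) (hk : E k) : y = 0 := by
  induction hy with
  | zero => rfl
  | step h y _ ih => exact hinj _ _ h hk y (ih (h ▸ hE _ hk))

end Vale.Agent.P221.H45
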