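import Vale.Agent.P221.H45.X0

/-!
# P221 (helper45): the object `X₀` lives in one class

`Inv.one` : from `Inv W r i₀ 0 X₀ a` with `n ≤ r + 1`, `n < q`: in high degrees `π_* X₀` and
`π_* (X₀ ⊗ V 1)` live in the class of `i₀`.
-/

open CategoryTheory MonoidalCategory MonObj Limits Pretriangulated
open Vale.Agent.P251.T Vale.Agent.P251.M Vale.Agent.P251.S

set_option linter.unusedSectionVars false

universe u

noncomputable section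

namespace Vale.Agent.P221.H45

open Vale.Agent.P221.T

variable {𝒯 : Type u} [Category.{0} 𝒯] [Preadditive 𝒯] [HasZeroObject 𝒯]
    [HasShift 𝒯 ℤ] [∀ n : ℤ, (shiftFunctor 𝒯 n).Additive] [Pretriangulated 𝒯] [IsTriangulated 𝒯]
    [MonoidalCategory 𝒯] [SymmetricCategory 𝒯] [TensorTriangulated 𝒯] [MonoidalClosed 𝒯]
    [HasCoproducts.{0} 𝒯] [HasProducts.{0} 𝒯] [StableCat 𝒯]

/-- `π_k (X ⊗ V) = 0` with `V = S / p ^ e` implies `π_k X = 0` -/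
theorem zero_of_mod {p e : ℕ} {C : 𝒯} {i : 𝟙_ 𝒯 ⟶ C} {δ₀ : C ⟶ (𝟙_ 𝒯)⟦(1 : ℤ)⟧}
    (hC : Triangle.mk ((p : ℤ) • 𝟙 (𝟙_ 𝒯)) i δ₀ ∈ distTriang 𝒯) {A X Y : 𝒯}
    (hX : H395.PComplete p X) {g : X ⟶ Y} {δ : Y ⟶ X⟦(1 : ℤ)⟧}
    (hT : Triangle.mk (((p : ℤ) ^ e) • 𝟙 X) g δ ∈ distTriang 𝒯) (he : 0 < e)
    (h : ∀ y : A ⟶ Y, y = 0) (x : A ⟶ X) : x = 0 := by
  refine hX.hom_eq_zero_of_div hC (fun x => ?_) x
  obtain ⟨y, hy⟩ := Triangle.coyoneda_exact₂ _ hT x (h _)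
  change A ⟶ X at y
  replace hy : x = y ≫ (((p : ℤ) ^ e) • 𝟙 X) := hy
  obtain ⟨e, rfl⟩ : ∃ e', e = e' + 1 := ⟨e - 1, by omega⟩
  refine ⟨((p : ℤ) ^ e) • y, ?_⟩
  rw [hy, Preadditive.comp_zsmul, Category.comp_id, pow_succ', mul_smul]

variable {R : 𝒯} [MonObj R] [IsCommMonObj R] {p : ℕ} {q : ℤ} {n : ℕ}

/-- **one class** -/
theorem Inv.one {C : 𝒯} {i : 𝟙_ 𝒯 ⟶ C} {δ₀ : C ⟶ (𝟙_ 𝒯)⟦(1 : ℤ)⟧}
    (hC : Triangle.mk ((p : ℤ) • 𝟙 (𝟙_ 𝒯)) i δ₀ ∈ distTriang 𝒯) {W : TowData R p q n} (he : 0 < W.e) {r i₀ : ℤ} {X X₀ : 𝒯} {a : X₀ ⟶ X}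
    (h : Inv W r i₀ 0 X₀ a) (hn : (n : ℤ) ≤ r + 1) (hnq : (n : ℤ) < q) :
    PiInHigh (fun k => q ∣ k - i₀) X₀ ∧ PiInHigh (fun k => q ∣ k - i₀) (X₀ ⊗ W.V 1) := by
  obtain ⟨T, hmis, -⟩ := h.mis
  obtain ⟨T₁, hT₁⟩ := h.cls
  obtain ⟨g, δ, hT⟩ := W.base X₀
  simp only [Nat.cast_zero, sub_zero] at hT₁
  have h1 : ∀ k, max T T₁ ≤ k → ¬ q ∣ k - i₀ → ∀ y : (𝟙_ 𝒯)⟦k⟧ ⟶ X₀, y = 0 := by
    intro k hk hkq
    by_cases hS : SS q i₀ n k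
    · obtain ⟨s, h0, hs, hd⟩ := hS
      rcases h0.eq_or_lt with rfl | h0
      · exact absurd (by simpa using hd) hkq
      · exact hmis k s (le_of_max_le_left hk) (by omega) (by omega) hd
    · exact zero_of_mod hC h.pc hT he (hT₁ k (le_of_max_le_right hk) hS)
  refine ⟨⟨max T T₁, h1⟩, ⟨max T T₁ + 1, fun k hk hkq y => ?_⟩⟩
  by_cases hS : SS q i₀ n k
  · obtain ⟨s, h0, hs, hd⟩ := hS
    have h2 : ¬ q ∣ k - 1 - i₀ := by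
      intro hd'
      have h3 : q ∣ s + 1 := by
        have := dvd_sub hd hd'
        rwa [show k - (i₀ - s) - (k - 1 - i₀) = s + 1 by ring] at this
      exact absurd (Int.le_of_dvd (by omega) h3) (by omega)
    have h3 : y ≫ δ = 0 := by
      have h4 := h1 (k - 1) (by omega) h2
      -- a class of degree `k` of `X₀⟦1⟧`
      have h5 : ∀ z : (𝟙_ 𝒯)⟦k⟧ ⟶ X₀⟦(1 : ℤ)⟧, z = 0 := by
        intro z
        let e : ((𝟙_ 𝒯)⟦k - 1⟧)⟦(1 : ℤ)⟧ ≅ (𝟙_ 𝒯)⟦k⟧ :=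
          (shiftFunctorAdd' 𝒯 (k - 1) 1 k (by ring)).symm.app _
        obtain ⟨z', hz'⟩ := (shiftFunctor 𝒯 (1 : ℤ)).map_surjective (e.hom ≫ z)
        rw [h4 z', Functor.map_zero] at hz'
        rw [← cancel_epi e.hom, ← hz', comp_zero]
      exact h5 _
    obtain ⟨y', hy'⟩ := Triangle.coyoneda_exact₃ _ hT y h3
    exact hy'.trans ((congrArg (· ≫ g) (h1 k (by omega) hkq y')).trans zero_comp)
  · exact hT₁ k (by omega) hS y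

end Vale.Agent.P221.H45
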