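import Vale.Agent.P221.H45.Defs
import Vale.Agent.P221.H377.Key
import Vale.Agent.P221.T.H817.Lin
import Vale.Agent.P221.T.H520.Lifts

/-!
# P221 (helper45): telescopes of graded self maps

`trF g a j : X⟦a - j d⟧ ⟶ X⟦a - (j + 1) d⟧` for `g : X⟦d⟧ ⟶ X`; the homotopy of the telescope,
tensored with `V`.
-/

open CategoryTheory MonoidalCategory MonObj Limits Pretriangulated
open Vale.Agent.P251.T Vale.Agent.P251.M Vale.Agent.P251.S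

set_option linter.unusedSectionVars false

universe u

noncomputable section

namespace Vale.Agent.P221.H45

open Vale.Agent.P221.T

variable {𝒯 : Type u} [Category.{0} 𝒯] [Preadditive 𝒯] [HasZeroObject 𝒯]
    [HasShift 𝒯 ℤ] [∀ n : ℤ, (shiftFunctor 𝒯 n).Additive] [Pretriangulated 𝒯] [IsTriangulated 𝒯]
    [MonoidalCategory 𝒯] [SymmetricCategory 𝒯] [TensorTriangulated 𝒯] [MonoidalClosed 𝒯]
    [HasCoproducts.{0} 𝒯] [HasProducts.{0} 𝒯] [StableCat 𝒯]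

/-- the transition maps -/
def trF {X : 𝒯} {d : ℤ} (g : X⟦d⟧ ⟶ X) (a : ℤ) (j : ℕ) :
    X⟦a - (j : ℤ) * d⟧ ⟶ X⟦a - ((j + 1 : ℕ) : ℤ) * d⟧ :=
  gc (by push_cast; ring) g (𝟙 (X⟦a - ((j + 1 : ℕ) : ℤ) * d⟧))

/-- the telescope of `g`, with offset `a` -/
abbrev TelD {X : 𝒯} {d : ℤ} (g : X⟦d⟧ ⟶ X) (a : ℤ) : Type u :=
  Tel (X := fun j : ℕ => X⟦a - (j : ℤ) * d⟧) (trF g a)

section one

variable {X : 𝒯} {d : ℤ} {g : X⟦d⟧ ⟶ X} {a : ℤ} (V : 𝒯)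

/-- the identification of a class of a stage -/
def cor {b k k' : ℤ} (h : b + k' = k) (z : (𝟙_ 𝒯)⟦k'⟧ ⟶ X ⊗ V) : (𝟙_ 𝒯)⟦k⟧ ⟶ X⟦b⟧ ⊗ V :=
  gc h z (fm (tensorRight V) (𝟙 (X⟦b⟧)))

theorem fm_one (F : 𝒯 ⥤ 𝒯) [F.CommShift ℤ] (X : 𝒯) (b : ℤ) :
    fm F (𝟙 (X⟦b⟧)) = (F.commShiftIso b).inv.app X := by
  unfold fm
  rw [CategoryTheory.Functor.map_id]
  exact Category.comp_id _

theorem cor_eq {b k k' : ℤ} (h : b + k' = k) (z : (𝟙_ 𝒯)⟦k'⟧ ⟶ X ⊗ V) :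
    cor V h z = gc h z (𝟙 ((X ⊗ V)⟦b⟧)) ≫ ((tensorRight V).commShiftIso b).inv.app X := by
  unfold cor
  rw [fm_one]
  exact (congrArg (gc h z) (Category.id_comp _).symm).trans (gc_comp h z (𝟙 ((X ⊗ V)⟦b⟧)) _)

theorem isCpt_one (k : ℤ) : Vale.Agent.P251.S.IsCpt ((𝟙_ 𝒯)⟦k⟧) := by
  intro I X f
  obtain ⟨s, g, rfl⟩ := StableCat.compact k X f
  obtain ⟨g', hg'⟩ := exists_sum_of_factor s g
  exact ⟨s, g', hg'⟩

theorem cor_surj {b k k' : ℤ} (h : b + k' = k) (y : (𝟙_ 𝒯)⟦k⟧ ⟶ X⟦b⟧ ⊗ V) :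
    ∃ z : (𝟙_ 𝒯)⟦k'⟧ ⟶ X ⊗ V, cor V h z = y := by
  obtain ⟨z, hz⟩ := gc_surj h (y ≫ ((tensorRight V).commShiftIso b).hom.app X)
  refine ⟨z, ?_⟩
  rw [cor_eq]
  refine (congrArg (· ≫ ((tensorRight V).commShiftIso b).inv.app X) hz).trans ?_
  change (y ≫ ((tensorRight V).commShiftIso b).hom.app X) ≫
    ((tensorRight V).commShiftIso b).inv.app X = y
  rw [Category.assoc, Iso.hom_inv_id_app]
  exact Category.comp_id _

theorem cor_inj {b k k' : ℤ} (h : b + k' = k) {z z' : (𝟙_ 𝒯)⟦k'⟧ ⟶ X ⊗ V}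
    (hz : cor V h z = cor V h z') : z = z' := by
  rw [cor_eq, cor_eq] at hz
  refine gc_inj h ?_
  rw [← cancel_mono (((tensorRight V).commShiftIso b).inv.app X)]
  exact hz

theorem cor_comp {b k k' : ℤ} (h : b + k' = k) (z : (𝟙_ 𝒯)⟦k'⟧ ⟶ X ⊗ V) {Z : 𝒯}
    (f : X⟦b⟧ ⟶ Z) : cor V h z ≫ f ▷ V = gc h z (fm (tensorRight V) f) := by
  unfold cor
  have h1 : fm (tensorRight V) f = fm (tensorRight V) (𝟙 (X⟦b⟧)) ≫ f ▷ V := by
    conv_lhs => rw [← Category.id_comp f]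
    exact fm_comp (tensorRight V) (𝟙 (X⟦b⟧)) f
  rw [h1, gc_comp]

theorem cor_tr (j : ℕ) {k k' k'' : ℤ} (h : a - (j : ℤ) * d + k' = k) (h' : d + k' = k'')
    (h'' : a - ((j + 1 : ℕ) : ℤ) * d + k'' = k) (z : (𝟙_ 𝒯)⟦k'⟧ ⟶ X ⊗ V) :
    cor V h z ≫ trF g a j ▷ V = cor V h'' (gc h' z (onR g V)) := by
  rw [cor_comp, trF, fm_gc]
  unfold cor
  exact gc_assoc z _ _ _ _ _ _

theorem ι_tr (U : TelD g a) (j : ℕ) {k k' k'' : ℤ} (h : a - (j : ℤ) * d + k' = k)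
    (h' : d + k' = k'') (h'' : a - ((j + 1 : ℕ) : ℤ) * d + k'' = k) (z : (𝟙_ 𝒯)⟦k'⟧ ⟶ X ⊗ V) :
    gc h z (fm (tensorRight V) (U.ι j)) =
      gc h'' (gc h' z (onR g V)) (fm (tensorRight V) (U.ι (j + 1))) := by
  rw [← cor_comp, ← cor_comp, ← cor_tr (g := g) V j h h' h'', Category.assoc,
    ← comp_whiskerRight, U.w]

/-- every class of the telescope comes from a stage -/
theorem exists_stage (U : TelD g a) {k : ℤ} (y : (𝟙_ 𝒯)⟦k⟧ ⟶ U.obj ⊗ V) :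
    ∃ (j : ℕ) (k' : ℤ) (h : a - (j : ℤ) * d + k' = k) (z : (𝟙_ 𝒯)⟦k'⟧ ⟶ X ⊗ V),
      y = gc h z (fm (tensorRight V) (U.ι j)) := by
  obtain ⟨j, y₀, hy₀⟩ := (U.tensR V).exists_factor
    (W := (𝟙_ 𝒯)⟦k⟧) (isCpt_one k) y
  obtain ⟨z, hz⟩ := cor_surj V (show a - (j : ℤ) * d + (k - (a - (j : ℤ) * d)) = k by ring) y₀
  refine ⟨j, k - (a - (j : ℤ) * d), by ring, z, ?_⟩
  rw [← cor_comp, hz]
  exact hy₀.symm

theorem Tor.ι_zero (U : TelD g a) {k' : ℤ} {z : (𝟙_ 𝒯)⟦k'⟧ ⟶ X ⊗ V} (hz : Tor (onR g V) z) :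
    ∀ (j : ℕ) {k : ℤ} (h : a - (j : ℤ) * d + k' = k),
      gc h z (fm (tensorRight V) (U.ι j)) = 0 := by
  induction hz with
  | zero => exact fun j k h => gc_zero_left _ _
  | step h' y _ ih =>
    intro j k h
    rw [ι_tr V U j h h' (by push_cast; linarith) y]
    exact ih _ _

theorem tor_of_trT (j i : ℕ) {k k' : ℤ} (h : a - (j : ℤ) * d + k' = k)
    (z : (𝟙_ 𝒯)⟦k'⟧ ⟶ X ⊗ V) : ∃ (k'' : ℤ) (h'' : a - ((j + i : ℕ) : ℤ) * d + k'' = k)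
      (z' : (𝟙_ 𝒯)⟦k''⟧ ⟶ X ⊗ V), (Tor (onR g V) z' → Tor (onR g V) z) ∧
      cor V h z ≫ trT (X := fun j : ℕ => X⟦a - (j : ℤ) * d⟧ ⊗ V) (fun j => trF g a j ▷ V) j i =
        cor V h'' z' := by
  induction i with
  | zero => exact ⟨k', h, z, id, Category.comp_id _⟩
  | succ i ih =>
    obtain ⟨k'', h'', z', h1, h2⟩ := ih
    refine ⟨d + k'', ?_, gc rfl z' (onR g V), fun h3 => h1 (.step rfl z' h3), ?_⟩
    · have h4 : ((j + (i + 1) : ℕ) : ℤ) = ((j + i : ℕ) : ℤ) + 1 := by push_cast; ring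
      rw [h4]
      linarith
    · rw [trT_succ, ← Category.assoc, h2]
      exact cor_tr V (j + i) h'' rfl _ z'

theorem tor_of_zero (U : TelD g a) (j : ℕ) {k k' : ℤ} (h : a - (j : ℤ) * d + k' = k)
    (z : (𝟙_ 𝒯)⟦k'⟧ ⟶ X ⊗ V) (hz : gc h z (fm (tensorRight V) (U.ι j)) = 0) :
    Tor (onR g V) z := by
  rw [← cor_comp] at hz
  obtain ⟨i, hi⟩ := (U.tensR V).exists_eq_zero (W := (𝟙_ 𝒯)⟦k⟧)
    (isCpt_one k) (cor V h z) hz
  obtain ⟨k'', h'', z', h1, h2⟩ := tor_of_trT (g := g) V j i h z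
  refine h1 ?_
  have h3 : z' = 0 := by
    refine cor_inj V h'' ?_
    rw [← h2]
    refine hi.trans ?_
    unfold cor
    rw [gc_zero_left]
  rw [h3]
  exact .zero

theorem gc_sub_left {P Q Y : 𝒯} {m k k' : ℤ} (h : k + m = k') (γ γ' : P⟦m⟧ ⟶ Q)
    (a : Q⟦k⟧ ⟶ Y) : gc h (γ - γ') a = gc h γ a - gc h γ' a := by
  simp only [gc, Functor.map_sub, Preadditive.sub_comp, Preadditive.comp_sub]

/-- the inclusion of `X` -/
def ι₀ (U : TelD g 0) : X ⟶ U.obj :=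
  (shiftFunctorZero' 𝒯 (0 - ((0 : ℕ) : ℤ) * d) (by simp)).inv.app X ≫ U.ι 0

theorem szero : shiftFunctorZero' 𝒯 (0 : ℤ) rfl = shiftFunctorZero 𝒯 ℤ := by
  unfold shiftFunctorZero'
  exact Iso.refl_trans _

theorem gc_of_zero {A Q Z : 𝒯} {b k : ℤ} (hb : b = 0) (h : b + k = k) (y : A⟦k⟧ ⟶ Q)
    (f : Q⟦b⟧ ⟶ Z) : gc h y f = y ≫ (shiftFunctorZero' 𝒯 b hb).inv.app Q ≫ f := by
  subst hb
  unfold gc
  have h1 : (shiftFunctorAdd' 𝒯 k 0 k (by omega)).hom.app A ≫ y⟦(0 : ℤ)⟧' =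
      y ≫ (shiftFunctorZero' 𝒯 (0 : ℤ) rfl).inv.app Q := by
    rw [shiftFunctorAdd'_add_zero_hom_app, szero]
    exact ((shiftFunctorZero 𝒯 ℤ).inv.naturality y).symm
  rw [reassoc_of% h1]

theorem zero_fm (F : 𝒯 ⥤ 𝒯) [F.CommShift ℤ] {Q Z : 𝒯} {b : ℤ} (hb : b = 0) (f : Q⟦b⟧ ⟶ Z) :
    (shiftFunctorZero' 𝒯 b hb).inv.app (F.obj Q) ≫ fm F f =
      F.map ((shiftFunctorZero' 𝒯 b hb).inv.app Q ≫ f) := by
  subst hb
  unfold fm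
  rw [szero, F.commShiftIso_zero, Functor.map_comp,
    ← Category.assoc]
  congr 1
  simp [Functor.CommShift.isoZero_inv_app]

theorem comp_ι₀ (U : TelD g 0) {k : ℤ} (h : 0 - ((0 : ℕ) : ℤ) * d + k = k)
    (y : (𝟙_ 𝒯)⟦k⟧ ⟶ X ⊗ V) :
    y ≫ ι₀ U ▷ V = gc h y (fm (tensorRight V) (U.ι 0)) := by
  rw [gc_of_zero (by simp) h]
  congr 1
  exact (zero_fm (tensorRight V) (by simp) (U.ι 0)).symm

/-- **the telescope is the localisation** -/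
theorem isLoc_tel (U : TelD g 0) : IsLoc g (ι₀ U) where
  tor V k y := by
    rw [comp_ι₀ V U (by simp)]
    exact ⟨tor_of_zero V U 0 _ y, fun h => h.ι_zero V U 0 _⟩
  onto V k H z := by
    obtain ⟨j, k', h, y, rfl⟩ := exists_stage V U z
    induction j generalizing k' with
    | zero =>
      obtain rfl : k' = k := by simpa using h
      exact ⟨y, comp_ι₀ V U h y⟩
    | succ j ih =>
      have h1 : k' = d + (k + j * d) := by push_cast at h; linarith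
      subst h1
      obtain ⟨x, hx⟩ := H j rfl rfl y
      obtain ⟨x', hx'⟩ := ih (k + j * d) (by ring) x
      refine ⟨x', hx'.trans ?_⟩
      rw [ι_tr V U j _ rfl h x, eq_comm, ← sub_eq_zero]
      refine Eq.trans ?_ (hx.ι_zero V U (j + 1) h)
      exact (gc_sub_left h y _ _).symm
  van V k H z := by
    obtain ⟨j, k', h, y, rfl⟩ := exists_stage V U z
    exact (H j (by linarith) y).ι_zero V U j h

end one

end Vale.Agent.P221.H45
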