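import Vale.Agent.P221.H45.Defs

/-!
# P221 (helper45): the one-class object `X₀ ⟶ X`

`exists_X0` : the iteration of the construction `Φ_w` over the stages of a tower of generalised
Moore spectra.
-/

open CategoryTheory MonoidalCategory MonObj Limits Pretriangulated
open Vale.Agent.P251.T Vale.Agent.P251.M Vale.Agent.P251.S

set_option linter.unusedSectionVars false

universe u

noncomputable section

namespace Vale.Agent.P221.H45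

open Vale.Agent.P221.T

variable {𝒯 : Type u} [Category.{0} 𝒯] [Preadditive 𝒯] [HasZeroObject 𝒯]
    [HasShift 𝒯 ℤ] [∀ n : ℤ, (shiftFunctor 𝒯 n).Additive] [Pretriangulated 𝒯] [IsTriangulated 𝒯]
    [MonoidalCategory 𝒯] [SymmetricCategory 𝒯] [TensorTriangulated 𝒯] [MonoidalClosed 𝒯]
    [HasCoproducts.{0} 𝒯] [HasProducts.{0} 𝒯] [StableCat 𝒯]

/-- an object on which `p ^ e = 0` is `p`-complete -/
theorem pComplete_of_pow {p e : ℕ} {X : 𝒯} (h : ((p : ℤ) ^ e) • 𝟙 X = 0) :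
    H395.PComplete p X := by
  intro W hW f
  have h1 : ∀ i : ℕ, ∃ g : W ⟶ X, f = ((p : ℤ) ^ i) • g := by
    intro i
    induction i with
    | zero => exact ⟨f, by simp⟩
    | succ i ih =>
      obtain ⟨g, rfl⟩ := ih
      obtain ⟨g', rfl⟩ := H395.exists_div hW g
      exact ⟨g', by rw [pow_succ, mul_smul]⟩
  obtain ⟨g, rfl⟩ := h1 e
  have h2 : ((p : ℤ) ^ e) • g = g ≫ (((p : ℤ) ^ e) • 𝟙 X) := by
    rw [Preadditive.comp_zsmul, Category.comp_id]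
  rw [h2, h, comp_zero]

/-- `p ^ e = 0` on `X ⊗ V` -/
theorem pow_ten {p e : ℕ} (X : 𝒯) {V : 𝒯} (h : ((p : ℤ) ^ e) • 𝟙 V = 0) :
    ((p : ℤ) ^ e) • 𝟙 (X ⊗ V) = 0 := by
  have h1 := map_zsmul ((tensorLeft X).mapAddHom (X := V) (Y := V)) ((p : ℤ) ^ e) (𝟙 _)
  change X ◁ (((p : ℤ) ^ e) • 𝟙 V) = ((p : ℤ) ^ e) • (X ◁ 𝟙 V) at h1
  rw [MonoidalCategory.whiskerLeft_id] at h1
  rw [← h1, h, MonoidalPreadditive.whiskerLeft_zero]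

/-- the classes `i₀, i₀ - 1, …, i₀ - (m - 1)` -/
def SS (q i₀ : ℤ) (m : ℤ) (k : ℤ) : Prop := ∃ s : ℤ, 0 ≤ s ∧ s < m ∧ q ∣ k - (i₀ - s)

theorem SS_per {q i₀ m : ℤ} (k j : ℤ) : SS q i₀ m (k + q * j) ↔ SS q i₀ m k := by
  constructor
  · rintro ⟨s, h0, h1, c, hc⟩
    exact ⟨s, h0, h1, c - j, by linear_combination hc⟩
  · rintro ⟨s, h0, h1, c, hc⟩
    exact ⟨s, h0, h1, c + j, by linear_combination hc⟩

theorem isZero_of_pi {X : 𝒯} (h : ∀ (k : ℤ) (y : (𝟙_ 𝒯)⟦k⟧ ⟶ X), y = 0) : IsZero X :=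
  StableCat.generator X h

variable {R : 𝒯} [MonObj R] [IsCommMonObj R] {p : ℕ} {q : ℤ} {n : ℕ}

/-- zero objects go up the tower -/
theorem TowData.isZero (W : TowData R p q n) {U : 𝒯} {j : ℕ} (hj : 1 ≤ j)
    (h : IsZero (U ⊗ W.V j)) : ∀ i : ℕ, j + i ≤ n + 1 → IsZero (U ⊗ W.V (j + i)) := by
  intro i
  induction i with
  | zero => exact fun _ => h
  | succ i ih =>
    intro hi
    have h1 := ih (by omega)
    obtain ⟨δ, hδ⟩ := W.tri (j + i) (by omega) (by omega) U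
    have h2 : IsZero ((U ⊗ W.V (j + i))⟦W.d (j + i)⟧) :=
      (shiftFunctor 𝒯 (W.d (j + i))).map_isZero h1
    exact Triangle.isZero₃_of_isZero₁₂ _ hδ h2 h1

/-- the invariant -/
structure Inv (W : TowData R p q n) (r i₀ : ℤ) {X : 𝒯} (j : ℕ) (Z : 𝒯) (a : Z ⟶ X) : Prop where
  pc : H395.PComplete p Z
  mis : ∃ T : ℤ, (∀ k s : ℤ, T ≤ k → 1 ≤ s → s ≤ r → q ∣ k - (i₀ - s) →
    ∀ y : (𝟙_ 𝒯)⟦k⟧ ⟶ Z, y = 0) ∧
    ∀ k : ℤ, T ≤ k → q ∣ k - i₀ → ∀ x : (𝟙_ 𝒯)⟦k⟧ ⟶ X, ∃ z : (𝟙_ 𝒯)⟦k⟧ ⟶ Z, z ≫ a = x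
  cls : PiInHigh (SS q i₀ (n - j)) (Z ⊗ W.V (j + 1))
  fin : PiInHigh (fun _ => False) (Z ⊗ W.V (n + 1))

variable (hA : StatementA 𝒯) (hB : StatementB 𝒯) (hC : StatementC 𝒯) (hD : StatementD 𝒯)
  (hR : RData R p q) (W : TowData R p q n) (hp : p.Prime) (hq : 3 ≤ q)
  {C : 𝒯} {i : 𝟙_ 𝒯 ⟶ C} {δ : C ⟶ (𝟙_ 𝒯)⟦(1 : ℤ)⟧}
  (hT : Triangle.mk ((p : ℤ) • 𝟙 (𝟙_ 𝒯)) i δ ∈ distTriang 𝒯)
  (hRC : PiIn (fun k => q ∣ k) (R ⊗ C))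

include hA hB hC hD hR hp hq hT hRC

/-- **one stage** -/
theorem Inv.step {r i₀ : ℤ} (hr : 1 ≤ r) (hrq : r < q) {X : 𝒯} {j : ℕ} (hj : j + 1 ≤ n)
    {Z : 𝒯} {a : Z ⟶ X} (h : Inv W r i₀ (j + 1) Z a) :
    ∃ (Z' : 𝒯) (a' : Z' ⟶ X), Inv W r i₀ j Z' a' := by
  obtain ⟨H⟩ := hD R Z p h.pc
  obtain ⟨hqd, hd0, hsg⟩ := W.deg (j + 1) (by omega) hj
  obtain ⟨A⟩ := hA R H.Z H.M q i₀ (W.w (j + 1)) hqd hsg
  obtain ⟨A'⟩ := hA R R (ModStr.self R) q i₀ (W.w (j + 1)) hqd hsg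
  obtain ⟨T, hmis, honto⟩ := h.mis
  have hmis' : ∀ {k s : ℤ}, T ≤ k → 1 ≤ s → s ≤ r → q ∣ k - (i₀ - s) →
      ∀ y : (𝟙_ 𝒯)⟦k⟧ ⟶ H.Z, y = 0 := by
    intro k s hk hs hsr hkq
    refine H.van (hR.van Z h.pc (fun k => ¬ q ∣ k - (i₀ - s)) (fun k j => not_congr ?_) T
      (fun k hk hk' => hmis k s hk hs hsr (not_not.1 hk')) k hk (not_not.2 hkq))
    have h1 : k + q * j - (i₀ - s) = k - (i₀ - s) + q * j := by ring
    rw [h1]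
    exact (Int.dvd_add_left (dvd_mul_right q j))
  obtain ⟨Φ⟩ := hB R H.Z H.M p hp q i₀ (W.w (j + 1)) A r T C i δ hT H.pc hqd hd0 hq hr hrq hRC
    hmis'
  -- the classes of `Z ⊗ V (j + 2)`
  have hpc : ∀ l, 1 ≤ l → l ≤ n + 1 → H395.PComplete p (Z ⊗ W.V l) := fun l hl hl' =>
    pComplete_of_pow (pow_ten Z (W.tor l hl hl'))
  obtain ⟨T₁, hT₁⟩ := h.cls
  have hcls : PiInHigh (SS q i₀ (n - (j + 1 : ℕ))) (H.Z ⊗ W.V (j + 1 + 1)) :=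
    ⟨T₁, fun k hk hk' => H.ten _ (W.dz _ (by omega) (by omega)) (hR.van _ (hpc _ (by omega)
      (by omega)) _ SS_per T₁ hT₁ k hk hk')⟩
  obtain ⟨T₂, hT₂⟩ := h.fin
  have hfin : ∀ k, T₂ ≤ k → ∀ y : (𝟙_ 𝒯)⟦k⟧ ⟶ H.Z ⊗ W.V (n + 1), y = 0 := fun k hk =>
    H.ten _ (W.dz _ (by omega) le_rfl) (hR.van _ (hpc _ (by omega) le_rfl) (fun _ => False)
      (fun _ _ => Iff.rfl) T₂ hT₂ k hk id)
  obtain ⟨hC1, hC2⟩ := hC R H.Z H.M (W.w (j + 1)) A.U A.ι A.isLoc hsg hd0 (W.V (j + 1))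
    (W.V (j + 1 + 1)) (W.f (j + 1)) (W.g (j + 1)) (W.tri (j + 1) (by omega) hj)
    (W.ind (j + 1) (by omega) hj)
  obtain ⟨-, hC3⟩ := hC R R (ModStr.self R) (W.w (j + 1)) A'.U A'.ι A'.isLoc hsg hd0 (W.V (j + 1))
    (W.V (j + 1 + 1)) (W.f (j + 1)) (W.g (j + 1)) (W.tri (j + 1) (by omega) hj)
    (W.ind (j + 1) (by omega) hj)
  have hE : ∀ k, SS q i₀ (n - (j + 1 : ℕ)) (k + W.d (j + 1)) ↔ SS q i₀ (n - (j + 1 : ℕ)) k := by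
    obtain ⟨c, hc⟩ := hqd
    intro k
    rw [hc]
    exact SS_per k c
  obtain ⟨T₃, hT₃⟩ := hC1 _ hE hcls
  -- the zero objects
  have hU : IsZero (A.U ⊗ W.V (n + 1)) := by
    have h1 : IsZero (A.U ⊗ W.V (j + 1 + 1)) := isZero_of_pi fun k y =>
      A.isLoc.van _ (fun _ _ _ y => hC2 _ y) y
    have h2 := W.isZero (by omega) h1 (n - (j + 1)) (by omega)
    rwa [show j + 1 + 1 + (n - (j + 1)) = n + 1 by omega] at h2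
  have hY : IsZero (A.Y ⊗ W.V (n + 1)) := by
    have h2 := W.isZero (by omega) (A.zero _ hC3) (n - (j + 1)) (by omega)
    rwa [show j + 1 + 1 + (n - (j + 1)) = n + 1 by omega] at h2
  refine ⟨Φ.Φ, Φ.a ≫ H.ev ≫ a, Φ.pc, ⟨T, fun k s hk hs hsr hkq => Φ.van hk hs hsr hkq,
    fun k hk hkq x => ?_⟩, ?_, ?_⟩
  · obtain ⟨z, rfl⟩ := honto k hk hkq x
    obtain ⟨z', hz'⟩ := hR.ext Z h.pc T i₀ (fun k hk hkq => hmis k 1 hk le_rfl hr hkq) k hk hkq z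
    obtain ⟨z₁, hz₁⟩ := H.lift z'
    obtain ⟨y, hy⟩ := Φ.onto hkq z₁
    exact ⟨y, by rw [reassoc_of% hy, reassoc_of% hz₁, reassoc_of% hz']⟩
  · refine ⟨T₃, fun k hk hkE => ?_⟩
    have h1 : ¬ SS q i₀ (n - (j + 1 : ℕ)) (k + 1) := by
      rintro ⟨s, h0, h1, h2⟩
      refine hkE ⟨s + 1, by omega, by push_cast at h1; omega, ?_⟩
      rwa [show k - (i₀ - (s + 1)) = k + 1 - (i₀ - s) by ring]
    obtain ⟨h3, h4⟩ := hT₃ k hk h1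
    refine Φ.ten _ W.et (W.tor _ (by omega) (by omega)) k h3 h4 ?_
    refine A.cls _ (fun k => q ∣ k) (fun k k' hkk hk => ?_) (W.cls _ (by omega) hj) k fun hk' => ?_
    · exact (Int.dvd_iff_dvd_of_dvd_sub hkk).1 hk
    · exact hkE ⟨0, le_rfl, by omega, by simpa using hk'⟩
  · refine ⟨T₂, fun k hk _ => ?_⟩
    refine Φ.ten _ W.et (W.tor _ (by omega) le_rfl) k (fun y _ => hfin k hk y)
      (fun z => ⟨0, ?_⟩) fun y => hY.eq_of_tgt _ _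
    exact hU.eq_of_tgt _ _

/-- **the iteration** -/
theorem exists_X0 {r i₀ : ℤ} (hr : 1 ≤ r) (hrq : r < q) {X : 𝒯} (hX : H395.PComplete p X)
    {T : ℤ} (hmis : ∀ k s : ℤ, T ≤ k → 1 ≤ s → s ≤ r → q ∣ k - (i₀ - s) →
      ∀ y : (𝟙_ 𝒯)⟦k⟧ ⟶ X, y = 0)
    (hfin : PiInHigh (fun _ => False) (X ⊗ W.V (n + 1))) :
    ∃ (X₀ : 𝒯) (a : X₀ ⟶ X), Inv W r i₀ 0 X₀ a := by
  have h0 : Inv W r i₀ n X (𝟙 X) := by
    refine ⟨hX, ⟨T, hmis, fun k _ _ x => ⟨x, Category.comp_id x⟩⟩, ?_, hfin⟩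
    obtain ⟨T₁, hT₁⟩ := hfin
    exact ⟨T₁, fun k hk _ => hT₁ k hk id⟩
  have h1 : ∀ i : ℕ, i ≤ n → ∃ (Z : 𝒯) (a : Z ⟶ X), Inv W r i₀ (n - i) Z a := by
    intro i
    induction i with
    | zero => exact fun _ => ⟨X, 𝟙 X, h0⟩
    | succ i ih =>
      intro hi
      obtain ⟨Z, a, hZ⟩ := ih (by omega)
      rw [show n - i = n - (i + 1) + 1 by omega] at hZ
      exact Inv.step hA hB hC hD hR W hp hq hT hRC hr hrq (by omega) hZ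
  have h2 := h1 n le_rfl
  rwa [Nat.sub_self] at h2

end Vale.Agent.P221.H45
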